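import Mathlib

/-!
# Exponentials of commuting operators of square zero

In a ring: elements `T i` that commute with each other, `T i * T i = 0`, and
`D * T i - T i * D = Y i` with `Y i` commuting with all `T j` and `Y i * T i = 0`.  The product of the
`1 + T i` conjugates `D` into `D - ∑ i, Y i`.
-/

namespace Vale.Agent.P286.H549

variable {R : Type*} [Ring R]

/-- The product of the `1 + T i` over a list of indices. -/
def ex {ι : Type*} (T : ι → R) (l : List ι) : R := (l.map fun i => 1 + T i).prod

@[simp] theorem ex_nil {ι : Type*} (T : ι → R) : ex T [] = 1 := rfl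

@[simp] theorem ex_cons {ι : Type*} (T : ι → R) (i : ι) (l : List ι) :
    ex T (i :: l) = (1 + T i) * ex T l := rfl

theorem ex_comm {ι : Type*} {T : ι → R} {x : R} (h : ∀ i, T i * x = x * T i) (l : List ι) :
    ex T l * x = x * ex T l := by
  induction l with
  | nil => simp
  | cons i l ih => rw [ex_cons, mul_assoc, ih, ← mul_assoc, ← mul_assoc, add_mul, mul_add, h i]
                   simp

/-- The inverse. -/
theorem ex_mul_ex {ι : Type*} {T : ι → R} (hT : ∀ i j, T i * T j = T j * T i)
    (h2 : ∀ i, T i * T i = 0) (l : List ι) : ex T l * ex (fun i => - T i) l = 1 := by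
  induction l with
  | nil => simp
  | cons i l ih =>
    rw [ex_cons, ex_cons, mul_assoc, ← mul_assoc (ex T l),
      ex_comm (x := 1 + - T i) (fun j => by rw [mul_add, add_mul, mul_neg, neg_mul, hT j i]; simp),
      mul_assoc, ih, mul_one, add_mul, mul_add, mul_add, one_mul, mul_one, mul_neg, mul_neg, h2]
    simp

theorem ex_mul_ex' {ι : Type*} {T : ι → R} (hT : ∀ i j, T i * T j = T j * T i)
    (h2 : ∀ i, T i * T i = 0) (l : List ι) : ex (fun i => - T i) l * ex T l = 1 := by
  have := ex_mul_ex (T := fun i => - T i) (fun i j => by simp [hT i j]) (fun i => by simp [h2]) l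
  simpa using this

/-- Conjugation of the differential. -/
theorem ex_conj {ι : Type*} {T Y : ι → R} {D : R}
    (hD : ∀ i, D * T i - T i * D = Y i) (hY : ∀ i j, Y i * T j = T j * Y i)
    (hYT : ∀ i, Y i * T i = 0) (l : List ι) :
    (D - (l.map Y).sum) * ex T l = ex T l * D := by
  induction l with
  | nil => simp
  | cons i l ih =>
    have hs : ∀ j, (l.map Y).sum * T j = T j * (l.map Y).sum := by
      intro j
      clear ih
      induction l with
      | nil => simp
      | cons k l ih => rw [List.map_cons, List.sum_cons, add_mul, mul_add, ih, hY]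
    have h1 : (D - (l.map Y).sum) * (1 + T i) = (1 + T i) * (D - (l.map Y).sum) + Y i := by
      rw [← hD i]
      have := hs i
      rw [mul_add, mul_one, sub_mul, this, add_mul, one_mul, mul_sub]
      abel
    rw [List.map_cons, List.sum_cons, ex_cons, ← mul_assoc,
      show D - (Y i + (l.map Y).sum) = (D - (l.map Y).sum) - Y i by abel, sub_mul, h1, sub_mul,
      add_mul, mul_assoc (1 + T i) (D - (l.map Y).sum), ih, mul_add (Y i), hYT, mul_one, add_zero,
      mul_assoc]
    abel

end Vale.Agent.P286.H549
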