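import Vale.Agent.P286.H389.J

/-!
# The value on the diagonal and first order differential operators
-/

namespace Vale.Agent.P286.H549

open H389 TensorProduct

noncomputable section

variable {A : Type} [CommRing A] [Algebra ℂ A]
variable {V : Type} [AddCommGroup V] [Module ℂ V] [Module A V] [IsScalarTower ℂ A V]
variable {V' : Type} [AddCommGroup V'] [Module ℂ V'] [Module A V'] [IsScalarTower ℂ A V']

theorem lim_mk_of_le {W W' : Type} [AddCommGroup W] [Module ℂ W] [AddCommGroup W'] [Module ℂ W']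
    {F : Fil W} (u : W →ₗ[ℂ] W') {k m : ℕ} (h : ∀ x ∈ F.F k, u x = 0) (hm : k ≤ m) (z : Cau F) :
    Cmp.lim F u k h (Cmp.mk F z) = u (z.1 m) := by
  rw [Cmp.lim_mk, eq_comm, ← sub_eq_zero, ← map_sub]
  exact h _ (Cmp.cau z hm)

omit [Module A V'] [IsScalarTower ℂ A V'] in
/-- A linear map composed with `ev`, as a limit. -/
theorem comp_ev (u : V →ₗ[ℂ] V') (x : J A V) :
    u (J.ev x) = Cmp.lim (FJ A V) (u ∘ₗ J.evl A V) 1
      (fun y hy => by rw [LinearMap.comp_apply, J.evl_zero y hy, map_zero]) x := by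
  refine Eq.trans (LinearMap.comp_apply u J.ev x).symm ?_
  induction x using Cmp.ind with
  | h z => rfl

/-- The value on the diagonal and differential operators: a differential operator `u` of order one
with `u (a x) = a u x + ∑ (v i a) E i x`. -/
theorem ev_ord {ι : Type} [Fintype ι] (u : V →ₗ[ℂ] V') (v : ι → Derivation ℂ A A)
    (E : ι → V →ₗ[ℂ] V') (hE : ∀ i (a : A) x, E i (a • x) = a • E i x)
    (hu : ∀ (a : A) x, u (a • x) = a • u x + ∑ i, v i a • E i x) (h : DO A u) (x : J A V) :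
    u (J.ev x) = J.ev (J.map u h x) + ∑ i, E i (J.ev (J.vf (v i) x)) := by
  have h1 : ∀ y : A ⊗[ℂ] V, u (J.evl A V y) = J.evl A V' (u.lTensor A y) +
      ∑ i, E i (J.evl A V ((v i : A →ₗ[ℂ] A).rTensor V y)) := by
    intro y
    induction y with
    | zero => simp
    | tmul c y =>
      simp only [J.evl_tmul, LinearMap.lTensor_tmul, LinearMap.rTensor_tmul, hu]
      congr 1
      refine Finset.sum_congr rfl fun i _ => ?_
      rw [hE]
      rfl
    | add x y hx hy =>
      simp only [LinearMap.map_add, hx, hy, Finset.sum_add_distrib]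
      abel
  obtain ⟨k, hk⟩ := id h
  have e1 : J.ev (J.map u h x) = Cmp.lim (FJ A V) (J.evl A V' ∘ₗ u.lTensor A) (1 + k)
      (fun y hy => J.evl_zero _ (hk 1 y hy)) x :=
    lim_lift (u.lTensor A) h (J.evl A V') 1 J.evl_zero _ (1 + k) _ rfl x
  have e2 : ∀ i, E i (J.ev (J.vf (v i) x)) = Cmp.lim (FJ A V)
      ((E i ∘ₗ J.evl A V) ∘ₗ (v i : A →ₗ[ℂ] A).rTensor V) 2
      (fun y hy => by
        rw [LinearMap.comp_apply, LinearMap.comp_apply,
          J.evl_zero _ (J.vf_mem (v i) (n := 1) y hy), map_zero]) x := by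
    intro i
    rw [comp_ev]
    exact lim_lift _ (J.vf_bdd (v i)) _ 1 _ _ 2 _ rfl x
  rw [comp_ev, e1, Finset.sum_congr rfl fun i _ => e2 i]
  induction x using Cmp.ind with
  | h z =>
    rw [lim_mk_of_le _ _ (show 1 ≤ 2 + k by omega), lim_mk_of_le _ _ (show 1 + k ≤ 2 + k by omega),
      Finset.sum_congr rfl fun i _ => lim_mk_of_le _ _ (show 2 ≤ 2 + k by omega) z]
    exact h1 _

end

end Vale.Agent.P286.H549
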