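import Vale.Agent.P286.H549.Expo

/-!
# Exponentials of twists

`TW d T Y`: commuting operators `T i` of square zero with `d T i = T i d + Y i`, where the `Y i`
commute with the `T j` and `Y i T i = 0`.  The product `eT T` of the `1 + T i` conjugates `d` into
`d - ∑ Y i`.  The main example is `T i = x i E i`, `Y i = y i E i`.
-/

namespace Vale.Agent.P286.H549

theorem zero_of_eq_neg {V : Type*} [AddCommGroup V] [Module ℂ V] {v : V} (h : v = -v) : v = 0 := by
  have h1 : (2 : ℂ) • v = 0 := by
    rw [two_smul]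
    nth_rewrite 2 [h]
    exact add_neg_cancel v
  exact (smul_eq_zero.1 h1).resolve_left two_ne_zero

section defs

variable {V : Type*} [AddCommGroup V] [Module ℂ V] {n : ℕ}

/-- The relations of a twist. -/
structure TW (d : V →ₗ[ℂ] V) (T Y : Fin n → V →ₗ[ℂ] V) : Prop where
  TT : ∀ i j v, T i (T j v) = T j (T i v)
  T2 : ∀ i v, T i (T i v) = 0
  dT : ∀ i v, d (T i v) = T i (d v) + Y i v
  YT : ∀ i j v, Y i (T j v) = T j (Y i v)
  Y2 : ∀ i v, Y i (T i v) = 0

/-- The product of the `1 + T i`. -/
def eT (T : Fin n → V →ₗ[ℂ] V) : V →ₗ[ℂ] V := ex (R := Module.End ℂ V) T (List.finRange n)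

/-- The product of the `1 - T i`. -/
def eN (T : Fin n → V →ₗ[ℂ] V) : V →ₗ[ℂ] V :=
  ex (R := Module.End ℂ V) (fun i => - T i) (List.finRange n)

theorem eN_eq (T : Fin n → V →ₗ[ℂ] V) : eN T = eT fun i => - T i := rfl

/-- A submodule stable under the `T i` is stable under the exponential. -/
theorem ex_mem {T : Fin n → Module.End ℂ V} {W : Submodule ℂ V} (h : ∀ i, ∀ v ∈ W, T i v ∈ W)
    (l : List (Fin n)) {v : V} (hv : v ∈ W) : ex T l v ∈ W := by
  induction l with
  | nil => exact hv
  | cons i l ih =>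
    rw [ex_cons, add_mul, one_mul]
    exact add_mem ih (h i _ ih)

theorem eT_mem {T : Fin n → V →ₗ[ℂ] V} {W : Submodule ℂ V} (h : ∀ i, ∀ v ∈ W, T i v ∈ W)
    {v : V} (hv : v ∈ W) : eT T v ∈ W := ex_mem (T := T) h _ hv

theorem eN_mem {T : Fin n → V →ₗ[ℂ] V} {W : Submodule ℂ V} (h : ∀ i, ∀ v ∈ W, T i v ∈ W)
    {v : V} (hv : v ∈ W) : eN T v ∈ W :=
  ex_mem (T := fun i => - T i) (fun i v hv => neg_mem (h i v hv)) _ hv

variable {V' : Type*} [AddCommGroup V'] [Module ℂ V']

/-- Intertwining maps. -/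
theorem ex_map {T : Fin n → Module.End ℂ V} {T' : Fin n → Module.End ℂ V'} {u : V →ₗ[ℂ] V'}
    (h : ∀ i v, u (T i v) = T' i (u v)) (l : List (Fin n)) (v : V) :
    u (ex T l v) = ex T' l (u v) := by
  induction l with
  | nil => rfl
  | cons i l ih =>
    rw [ex_cons, ex_cons, add_mul, add_mul, one_mul, one_mul, LinearMap.add_apply,
      LinearMap.add_apply, map_add, Module.End.mul_apply, Module.End.mul_apply, h, ih]

theorem eT_map {T : Fin n → V →ₗ[ℂ] V} {T' : Fin n → V' →ₗ[ℂ] V'} {u : V →ₗ[ℂ] V'}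
    (h : ∀ i v, u (T i v) = T' i (u v)) (v : V) : u (eT T v) = eT T' (u v) :=
  ex_map (T := T) (T' := T') h _ v

theorem eN_map {T : Fin n → V →ₗ[ℂ] V} {T' : Fin n → V' →ₗ[ℂ] V'} {u : V →ₗ[ℂ] V'}
    (h : ∀ i v, u (T i v) = T' i (u v)) (v : V) : u (eN T v) = eN T' (u v) :=
  ex_map (T := fun i => - T i) (T' := fun i => - T' i) (fun i v => by simp [h]) _ v

/-- A map which kills the images of the `T i` does not see the exponential. -/
theorem ex_ret {T : Fin n → Module.End ℂ V} {q : V →ₗ[ℂ] V'} (h : ∀ i v, q (T i v) = 0)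
    (l : List (Fin n)) (v : V) : q (ex T l v) = q v := by
  induction l with
  | nil => rfl
  | cons i l ih =>
    rw [ex_cons, add_mul, one_mul, LinearMap.add_apply, map_add, Module.End.mul_apply, h, ih,
      add_zero]

theorem eT_ret {T : Fin n → V →ₗ[ℂ] V} {q : V →ₗ[ℂ] V'} (h : ∀ i v, q (T i v) = 0) (v : V) :
    q (eT T v) = q v := ex_ret (T := T) h _ v

theorem eN_ret {T : Fin n → V →ₗ[ℂ] V} {q : V →ₗ[ℂ] V'} (h : ∀ i v, q (T i v) = 0) (v : V) :
    q (eN T v) = q v := ex_ret (T := fun i => - T i) (fun i v => by simp [h]) _ v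

/-- The exponential of operators which vanish at a vector. -/
theorem ex_fix {T : Fin n → Module.End ℂ V} {v : V} (h : ∀ i, T i v = 0) (l : List (Fin n)) :
    ex T l v = v := by
  induction l with
  | nil => rfl
  | cons i l ih =>
    rw [ex_cons, add_mul, one_mul, LinearMap.add_apply, Module.End.mul_apply, ih, h, add_zero]

theorem eT_fix {T : Fin n → V →ₗ[ℂ] V} {v : V} (h : ∀ i, T i v = 0) : eT T v = v :=
  ex_fix (T := T) h _

theorem eT_congr {T T' : Fin n → V →ₗ[ℂ] V} (h : ∀ i v, T i v = T' i v) (v : V) :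
    eT T v = eT T' v := by
  rw [show T = T' from funext fun i => LinearMap.ext fun v => h i v]

end defs

namespace TW

variable {V : Type*} [AddCommGroup V] [Module ℂ V] {n : ℕ} {d : V →ₗ[ℂ] V}
  {T Y : Fin n → V →ₗ[ℂ] V} (h : TW d T Y)

include h

theorem eT_eN (v : V) : eT T (eN T v) = v :=
  LinearMap.congr_fun (ex_mul_ex (R := Module.End ℂ V) (T := T)
    (fun i j => LinearMap.ext fun v => h.TT i j v) (fun i => LinearMap.ext fun v => h.T2 i v)
    (List.finRange n)) v

theorem eN_eT (v : V) : eN T (eT T v) = v :=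
  LinearMap.congr_fun (ex_mul_ex' (R := Module.End ℂ V) (T := T)
    (fun i j => LinearMap.ext fun v => h.TT i j v) (fun i => LinearMap.ext fun v => h.T2 i v)
    (List.finRange n)) v

theorem eT_bijective : Function.Bijective (eT T) :=
  Function.bijective_iff_has_inverse.2 ⟨eN T, h.eN_eT, h.eT_eN⟩

theorem eN_bijective : Function.Bijective (eN T) :=
  Function.bijective_iff_has_inverse.2 ⟨eT T, h.eT_eN, h.eN_eT⟩

/-- The exponential conjugates the differential. -/
theorem d_eT (v : V) : d (eT T v) - ∑ i, Y i (eT T v) = eT T (d v) := by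
  have h1 := LinearMap.congr_fun (ex_conj (R := Module.End ℂ V) (T := T) (Y := Y) (D := d)
    (fun i => LinearMap.ext fun v => by
      change d (T i v) - T i (d v) = Y i v
      rw [h.dT, add_sub_cancel_left])
    (fun i j => LinearMap.ext fun v => h.YT i j v)
    (fun i => LinearMap.ext fun v => h.Y2 i v) (List.finRange n)) v
  rw [Module.End.mul_apply, Module.End.mul_apply, LinearMap.sub_apply] at h1
  refine Eq.trans ?_ h1
  congr 1
  rw [← List.sum_ofFn, List.ofFn_eq_map]
  change (List.map (fun i => Y i (ex (R := Module.End ℂ V) T (List.finRange n) v))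
    (List.finRange n)).sum = _
  generalize (ex (R := Module.End ℂ V) T (List.finRange n)) v = w
  generalize List.finRange n = l
  induction l with
  | nil => rfl
  | cons i l ih =>
    rw [List.map_cons, List.sum_cons, List.map_cons, List.sum_cons, LinearMap.add_apply, ← ih]

/-- The inverse form. -/
theorem d_eN (v : V) : d (eN T v) = eN T (d v - ∑ i, Y i v) := by
  have h1 := h.d_eT (eN T v)
  rw [h.eT_eN] at h1
  rw [h1, h.eN_eT]

theorem T_eT (i : Fin n) (v : V) : T i (eT T v) = eT T (T i v) :=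
  eT_map (u := T i) (fun j v => h.TT i j v) v

theorem Y_eT (i : Fin n) (v : V) : Y i (eT T v) = eT T (Y i v) :=
  eT_map (u := Y i) (fun j v => h.YT i j v) v

/-- The twisted differential has square zero. -/
theorem dd (hd : ∀ v, d (d v) = 0) (v : V) :
    (d - ∑ i, Y i) ((d - ∑ i, Y i) v) = 0 := by
  have key : ∀ v, (d - ∑ i, Y i) v = eT T (d (eN T v)) := by
    intro v
    rw [← h.d_eT, h.eT_eN, LinearMap.sub_apply, LinearMap.sum_apply]
  rw [key, key, h.eN_eT, hd, map_zero]

end TW

/-! ### The operators `x i E i` -/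

section XE

variable {V : Type*} [AddCommGroup V] [Module ℂ V] {n : ℕ}

/-- The relations between the multiplications `x i`, the operators `E i` and `y i`. -/
structure XY (d : V →ₗ[ℂ] V) (x E y : Fin n → V →ₗ[ℂ] V) : Prop where
  xx : ∀ i j v, x i (x j v) = - x j (x i v)
  EE : ∀ i j v, E i (E j v) = - E j (E i v)
  Ex : ∀ i j v, E i (x j v) = - x j (E i v)
  dE : ∀ i v, d (E i v) = - E i (d v)
  dx : ∀ i v, d (x i v) + x i (d v) = y i v
  yx : ∀ i j v, y i (x j v) = x j (y i v)
  yE : ∀ i j v, y i (E j v) = E j (y i v)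

/-- The same with derivatives `p i`. -/
structure XE (d : V →ₗ[ℂ] V) (x E p y : Fin n → V →ₗ[ℂ] V) : Prop extends XY d x E y where
  px : ∀ i j v, p i (x j v) + x j (p i v) = if i = j then v else 0
  pE : ∀ i j v, p i (E j v) = - E j (p i v)

/-- The operator `x i E i`. -/
def xe (x E : Fin n → V →ₗ[ℂ] V) (i : Fin n) : V →ₗ[ℂ] V := x i ∘ₗ E i

@[simp] theorem xe_apply (x E : Fin n → V →ₗ[ℂ] V) (i : Fin n) (v : V) :
    xe x E i v = x i (E i v) := rfl

variable {d : V →ₗ[ℂ] V} {x E p y : Fin n → V →ₗ[ℂ] V}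

theorem XY.xi_xi (h : XY d x E y) (i : Fin n) (v : V) : x i (x i v) = 0 :=
  zero_of_eq_neg (h.xx i i v)

theorem XY.E_E (h : XY d x E y) (i : Fin n) (v : V) : E i (E i v) = 0 :=
  zero_of_eq_neg (h.EE i i v)

/-- The twist defined by the `x i` and `E i`. -/
theorem XY.tw (h : XY d x E y) : TW d (xe x E) (xe y E) where
  TT i j v := by
    simp only [xe_apply]
    rw [h.Ex, map_neg, h.Ex j i, map_neg, h.xx i j, h.EE i j, map_neg, map_neg, neg_neg]
  T2 i v := by
    simp only [xe_apply]
    rw [h.Ex, map_neg, h.xi_xi, neg_zero]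
  dT i v := by
    simp only [xe_apply]
    rw [← h.dx, h.dE, map_neg]
    abel
  YT i j v := by
    simp only [xe_apply]
    rw [h.Ex, map_neg, h.yx, h.EE i j, map_neg, map_neg, neg_neg, h.yE]
  Y2 i v := by
    simp only [xe_apply]
    rw [h.Ex, h.E_E, map_zero, neg_zero, map_zero]

/-- The `E j` commute with the exponential. -/
theorem XY.E_xe (h : XY d x E y) (i j : Fin n) (v : V) :
    E i (x j (E j v)) = x j (E j (E i v)) := by
  rw [h.Ex, h.EE i j, map_neg, neg_neg]

theorem XY.E_eT (h : XY d x E y) (i : Fin n) (v : V) :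
    E i (eT (xe x E) v) = eT (xe x E) (E i v) :=
  eT_map (u := E i) (fun j v => h.E_xe i j v) v

theorem XY.y_eT (h : XY d x E y) (i : Fin n) (v : V) :
    y i (eT (xe x E) v) = eT (xe x E) (y i v) :=
  eT_map (u := y i) (fun j v => by rw [xe_apply, xe_apply, h.yx, h.yE]) v

/-- Maps which commute or anticommute simultaneously with the `x i` and the `E i`. -/
theorem eT_xe_map {V' : Type*} [AddCommGroup V'] [Module ℂ V'] {x' E' : Fin n → V' →ₗ[ℂ] V'}
    {u : V →ₗ[ℂ] V'} (c : ℂ) (hc : c * c = 1) (hx : ∀ i v, u (x i v) = c • x' i (u v))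
    (hE : ∀ i v, u (E i v) = c • E' i (u v)) (v : V) :
    u (eT (xe x E) v) = eT (xe x' E') (u v) :=
  eT_map (fun i v => by
    rw [xe_apply, xe_apply, hx, hE, map_smul, smul_smul, hc, one_smul]) v

/-- The exponential conjugates the derivatives. -/
theorem XE.p_eT (h : XE d x E p y) (i : Fin n) (v : V) :
    p i (eT (xe x E) v) = eT (xe x E) (p i v) + eT (xe x E) (E i v) := by
  have hp : ∀ j v, p i (x j (E j v)) = x j (E j (p i v)) + if i = j then E i v else 0 := by
    intro j v
    have h1 := h.px i j (E j v)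
    rw [h.pE, map_neg, ← sub_eq_add_neg, sub_eq_iff_eq_add] at h1
    rw [h1]
    split_ifs with hij
    · subst hij
      rw [add_comm]
    · rw [zero_add, add_zero]
  have key : ∀ l : List (Fin n), l.Nodup → p i (ex (R := Module.End ℂ V) (xe x E) l v) =
      ex (R := Module.End ℂ V) (xe x E) l (p i v) +
      if i ∈ l then ex (R := Module.End ℂ V) (xe x E) l (E i v) else 0 := by
    intro l
    induction l with
    | nil => simp
    | cons j l ih =>
      intro hl
      rw [List.nodup_cons] at hl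
      have h2 := ih hl.2
      simp only [ex_cons, add_mul, one_mul, LinearMap.add_apply, Module.End.mul_apply, xe_apply,
        map_add, h2, hp, List.mem_cons]
      by_cases hij : i = j
      · subst hij
        have h3 : E i (ex (R := Module.End ℂ V) (xe x E) l v) =
            ex (R := Module.End ℂ V) (xe x E) l (E i v) :=
          ex_map (T := xe x E) (T' := xe x E) (u := E i) (fun j v => h.E_xe i j v) _ v
        have h4 : E i (ex (R := Module.End ℂ V) (xe x E) l (E i v)) = 0 := by
          rw [ex_map (T := xe x E) (T' := xe x E) (u := E i) (fun j v => h.E_xe i j v) l (E i v),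
            h.E_E, map_zero]
        simp only [hl.1, if_false, if_true, true_or, h3, h4, map_zero, add_zero]
        abel
      · simp only [hij, if_false, false_or, add_zero]
        split_ifs with hil
        · abel
        · simp
  have := key (List.finRange n) (List.nodup_finRange n)
  rwa [if_pos (List.mem_finRange i)] at this

end XE

end Vale.Agent.P286.H549
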