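import Vale.Agent.P286.H549.Ex
import Vale.Agent.P286.H761.Tot

/-!
# Twisting a graded differential space by an exponential
-/

namespace Vale.Agent.P286.H549

open H847 H847.GD H761 H761.CS

/-! ### Twisted graded differential spaces -/

section twG

variable {n : ℕ} (M : GD) {T Y : Fin n → M.V →ₗ[ℂ] M.V} (h : TW M.d T Y)

/-- The graded differential space with the differential `d - ∑ Y i`. -/
abbrev twG (hY : ∀ i m, ∀ v ∈ M.gr m, Y i v ∈ M.gr (m + 1)) : GD where
  V := M.V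
  d := M.d - ∑ i, Y i
  dd := h.dd M.dd
  gr := M.gr
  dgr m v hv := by
    rw [LinearMap.sub_apply, LinearMap.sum_apply]
    exact sub_mem (M.dgr m v hv) (Submodule.sum_mem _ fun i _ => hY i m v hv)

variable (hY : ∀ i m, ∀ v ∈ M.gr m, Y i v ∈ M.gr (m + 1))
  (hT : ∀ i m, ∀ v ∈ M.gr m, T i v ∈ M.gr m)

theorem twG_d (v : M.V) : (twG M h hY).d v = M.d v - ∑ i, Y i v := by
  change (M.d - ∑ i, Y i) v = _
  rw [LinearMap.sub_apply, LinearMap.sum_apply]

/-- The exponential as a morphism to the twisted space. -/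
def toTw : Hom M (twG M h hY) where
  f := eT T
  comm v := by rw [twG_d, h.d_eT]
  deg m _ hv := eT_mem (fun i => hT i m) hv

/-- The inverse. -/
def ofTw : Hom (twG M h hY) M where
  f := eN T
  comm v := by
    rw [twG_d]
    exact (h.d_eN v).symm
  deg m _ hv := eN_mem (fun i => hT i m) hv

@[simp] theorem toTw_f (v : M.V) : (toTw M h hY hT).f v = eT T v := rfl

@[simp] theorem ofTw_f (v : M.V) : (ofTw M h hY hT).f v = eN T v := rfl

theorem toTw_ofTw (v : M.V) : (toTw M h hY hT).f ((ofTw M h hY hT).f v) = v := h.eT_eN v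

theorem ofTw_toTw (v : M.V) : (ofTw M h hY hT).f ((toTw M h hY hT).f v) = v := h.eN_eT v

/-- Isomorphisms are quasi-isomorphisms. -/
theorem qis_of_inv {M N : GD} (u : Hom M N) (v : Hom N M) (huv : ∀ x, u.f (v.f x) = x)
    (hvu : ∀ x, v.f (u.f x) = x) : Qis u :=
  Qis.of_htpy u v 0 (fun _ _ _ => zero_mem _) (fun _ x _ => by simp [hvu]) 0
    (fun _ _ _ => zero_mem _) (fun _ x _ => by simp [huv])

theorem qis_toTw : Qis (toTw M h hY hT) :=
  qis_of_inv _ (ofTw M h hY hT) (toTw_ofTw M h hY hT) (ofTw_toTw M h hY hT)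

theorem qis_ofTw : Qis (ofTw M h hY hT) :=
  qis_of_inv _ (toTw M h hY hT) (ofTw_toTw M h hY hT) (toTw_ofTw M h hY hT)

end twG

section twMap

variable {n : ℕ} {M M' : GD} {T Y : Fin n → M.V →ₗ[ℂ] M.V} (h : TW M.d T Y)
  {T' Y' : Fin n → M'.V →ₗ[ℂ] M'.V} (h' : TW M'.d T' Y')
  (hY : ∀ i m, ∀ v ∈ M.gr m, Y i v ∈ M.gr (m + 1))
  (hY' : ∀ i m, ∀ v ∈ M'.gr m, Y' i v ∈ M'.gr (m + 1))

/-- A morphism which commutes with the `Y i` is a morphism of the twisted spaces. -/
def twMap (u : Hom M M') (hu : ∀ i v, u.f (Y i v) = Y' i (u.f v)) :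
    Hom (twG M h hY) (twG M' h' hY') where
  f := u.f
  comm v := by
    rw [twG_d, twG_d, map_sub, map_sum, u.comm]
    congr 1
    exact Finset.sum_congr rfl fun i _ => hu i v
  deg := u.deg

@[simp] theorem twMap_f (u : Hom M M') (hu : ∀ i v, u.f (Y i v) = Y' i (u.f v)) (v : M.V) :
    (twMap h h' hY hY' u hu).f v = u.f v := rfl

/-- A quasi-isomorphism which commutes with the `T i` and the `Y i` is a quasi-isomorphism of the
twisted spaces. -/
theorem qis_twMap (hT : ∀ i m, ∀ v ∈ M.gr m, T i v ∈ M.gr m)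
    (hT' : ∀ i m, ∀ v ∈ M'.gr m, T' i v ∈ M'.gr m) (u : Hom M M')
    (hu : ∀ i v, u.f (Y i v) = Y' i (u.f v)) (hu' : ∀ i v, u.f (T i v) = T' i (u.f v))
    (hq : Qis u) : Qis (twMap h h' hY hY' u hu) := by
  have h1 : Qis ((twMap h h' hY hY' u hu).comp (toTw M h hY hT)) := by
    have e : (twMap h h' hY hY' u hu).comp (toTw M h hY hT) =
        (toTw M' h' hY' hT').comp u := by
      have : ∀ v, u.f (eT T v) = eT T' (u.f v) := eT_map hu'
      have e2 : ((twMap h h' hY hY' u hu).comp (toTw M h hY hT)).f =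
          ((toTw M' h' hY' hT').comp u).f := LinearMap.ext this
      cases hp : (twMap h h' hY hY' u hu).comp (toTw M h hY hT)
      cases hq : (toTw M' h' hY' hT').comp u
      rw [hp, hq] at e2
      simp only [GD.Hom.mk.injEq]
      exact e2
    rw [e]
    exact (qis_toTw M' h' hY' hT').comp hq
  exact Qis.of_comp_right (qis_toTw M h hY hT) h1

end twMap

/-! ### Twisted semi-cosimplicial spaces -/

section twCS

variable {n : ℕ} (X : CS) {T Y : ∀ k, Fin n → (X.X k).V →ₗ[ℂ] (X.X k).V}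
  (h : ∀ k, TW (X.X k).d (T k) (Y k))
  (hY : ∀ k i m, ∀ v ∈ (X.X k).gr m, Y k i v ∈ (X.X k).gr (m + 1))
  (hT : ∀ k i m, ∀ v ∈ (X.X k).gr m, T k i v ∈ (X.X k).gr m)
  (fT : ∀ i, FcComm (X := X) (Y := X) fun k => T k i)
  (fY : ∀ i, FcComm (X := X) (Y := X) fun k => Y k i)

/-- The faces of the twisted semi-cosimplicial space are those of `X`. -/
def twFc (k i : ℕ) (hi : i ≤ k + 1) : Hom (twG (X.X k) (h k) (hY k)) (twG (X.X (k + 1)) (h (k + 1))
    (hY (k + 1))) :=
  twMap (h k) (h (k + 1)) (hY k) (hY (k + 1)) (X.fc k i) (fun j v => (fY j k i hi v).symm)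

/-- The twisted semi-cosimplicial space. -/
def twCS : CS where
  X k := twG (X.X k) (h k) (hY k)
  fc k i := if hi : i ≤ k + 1 then twFc X h hY fY k i hi else
    ⟨0, fun _ => by simp, fun _ _ _ => zero_mem _⟩
  rel k i j hij hj v := by
    rw [dif_pos (show j + 1 ≤ k + 1 + 1 by omega), dif_pos (show i ≤ k + 1 by omega),
      dif_pos (show i ≤ k + 1 + 1 by omega), dif_pos hj]
    exact X.rel k i j hij hj v

theorem twCS_fc (k i : ℕ) (hi : i ≤ k + 1) (v : (X.X k).V) :
    ((twCS X h hY fY).fc k i).f v = (X.fc k i).f v := by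
  change (if hi : i ≤ k + 1 then twFc X h hY fY k i hi else _).f v = _
  rw [dif_pos hi]
  rfl

/-- The exponential as a morphism of semi-cosimplicial spaces. -/
def toTwCS : Mor X (twCS X h hY fY) where
  f k := toTw (X.X k) (h k) (hY k) (hT k)
  face k i hi v := by
    refine Eq.trans ?_ (twCS_fc X h hY fY k i hi (eT (T k) v)).symm
    exact (eT_map (u := (X.fc k i).f) (fun j v => (fT j k i hi v).symm) v).symm

/-- The inverse. -/
def ofTwCS : Mor (twCS X h hY fY) X where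
  f k := ofTw (X.X k) (h k) (hY k) (hT k)
  face k i hi v := by
    refine (congrArg (eN (T (k + 1))) (twCS_fc X h hY fY k i hi v)).trans ?_
    exact (eN_map (u := (X.fc k i).f) (fun j v => (fT j k i hi v).symm) v).symm

theorem toTwCS_f (k : ℕ) (v : (X.X k).V) :
    ((toTwCS X h hY hT fT fY).f k).f v = eT (T k) v := rfl

theorem ofTwCS_f (k : ℕ) (v : (X.X k).V) :
    ((ofTwCS X h hY hT fT fY).f k).f v = eN (T k) v := rfl

theorem qis_toTwCS : Qis (toTwCS X h hY hT fT fY).tot :=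
  Mor.qis_tot _ fun k => qis_toTw (X.X k) (h k) (hY k) (hT k)

theorem qis_ofTwCS : Qis (ofTwCS X h hY hT fT fY).tot :=
  Mor.qis_tot _ fun k => qis_ofTw (X.X k) (h k) (hY k) (hT k)

theorem toTwCS_ofTwCS (v : (twCS X h hY fY).Tot.V) : (toTwCS X h hY hT fT fY).tot.f
    ((ofTwCS X h hY hT fT fY).tot.f v) = v := by
  funext k
  rw [Mor.tot_apply, Mor.tot_apply]
  exact (h k).eT_eN (v k)

theorem ofTwCS_toTwCS (v : X.Tot.V) : (ofTwCS X h hY hT fT fY).tot.f
    ((toTwCS X h hY hT fT fY).tot.f v) = v := by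
  funext k
  rw [Mor.tot_apply, Mor.tot_apply]
  exact (h k).eN_eT (v k)

include h fT in
/-- The relations on the total. -/
theorem TW.tot : TW X.Tot.d (fun i => totLin (X := X) (Y := X) 1 fun k => T k i)
    (fun i => totLin (X := X) (Y := X) (-1) fun k => Y k i) := by
  refine ⟨?_, ?_, ?_, ?_, ?_⟩
  · intro i j v
    funext k
    change (1 : ℂ) ^ k • T k i ((1 : ℂ) ^ k • T k j (v k)) =
      (1 : ℂ) ^ k • T k j ((1 : ℂ) ^ k • T k i (v k))
    rw [one_pow, one_smul, one_smul, one_smul, one_smul, (h k).TT]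
  · intro i v
    funext k
    change (1 : ℂ) ^ k • T k i ((1 : ℂ) ^ k • T k i (v k)) = 0
    rw [one_pow, one_smul, one_smul, (h k).T2]
  · intro i v
    funext k
    match k with
    | 0 =>
      change (X.X 0).d ((1 : ℂ) ^ 0 • T 0 i (v 0)) = (1 : ℂ) ^ 0 • T 0 i ((X.X 0).d (v 0)) +
        (-1 : ℂ) ^ 0 • Y 0 i (v 0)
      rw [pow_zero, pow_zero, one_smul, one_smul, one_smul, (h 0).dT]
    | (k + 1) =>
      change (-1 : ℂ) ^ (k + 1) • (X.X (k + 1)).d ((1 : ℂ) ^ (k + 1) • T (k + 1) i (v (k + 1))) +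
          X.dl k ((1 : ℂ) ^ k • T k i (v k)) = (1 : ℂ) ^ (k + 1) • T (k + 1) i
          ((-1 : ℂ) ^ (k + 1) • (X.X (k + 1)).d (v (k + 1)) + X.dl k (v k)) +
        (-1 : ℂ) ^ (k + 1) • Y (k + 1) i (v (k + 1))
      have hf := (fT i).dl k (v k)
      rw [one_pow, one_smul, one_pow, one_smul, one_smul, (h (k + 1)).dT, map_add, map_smul, hf,
        smul_add]
      abel
  · intro i j v
    funext k
    change (-1 : ℂ) ^ k • Y k i ((1 : ℂ) ^ k • T k j (v k)) =
      (1 : ℂ) ^ k • T k j ((-1 : ℂ) ^ k • Y k i (v k))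
    rw [one_pow, one_smul, one_smul, map_smul, (h k).YT]
  · intro i v
    funext k
    change (-1 : ℂ) ^ k • Y k i ((1 : ℂ) ^ k • T k i (v k)) = 0
    rw [one_pow, one_smul, (h k).Y2, smul_zero]

/-- The exponential on the total is the exponential on the levels. -/
theorem eT_tot (v : X.Tot.V) (k : ℕ) :
    eT (fun i => totLin (X := X) (Y := X) 1 fun k => T k i) v k = eT (T k) (v k) :=
  eT_map (u := LinearMap.proj (R := ℂ) (φ := fun k => (X.X k).V) k) (fun i v => by
    change (1 : ℂ) ^ k • T k i (v k) = T k i (v k)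
    rw [one_pow, one_smul]) v

end twCS

end Vale.Agent.P286.H549
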