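import Vale.Agent.P286.H549.TwLM
import Vale.Agent.P286.H761.Cosi

/-!
# Twisted totals of functors with gauge maps
-/

namespace Vale.Agent.P286.H549

open CategoryTheory TensorProduct H847 H847.GD H847.SGD H64 H761 H761.CS

noncomputable section

variable {n : ℕ}

/-! ### Functors to `LM n` and their totals -/

/-- A functor with values in `LM n`. -/
structure LF (C : Type 1) [Category.{0} C] (n : ℕ) : Type 1 where
  obj : C → LM n
  map : ∀ {X Z : C}, (X ⟶ Z) → LM.Hom (obj X) (obj Z)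
  map_id : ∀ X x, (map (𝟙 X)).f x = x
  map_comp : ∀ {X Y Z : C} (φ : X ⟶ Y) (ψ : Y ⟶ Z) x,
    (map (φ ≫ ψ)).f x = (map ψ).f ((map φ).f x)

namespace LF

variable {C : Type 1} [Category.{0} C]

/-- The underlying functor. -/
abbrev gf (F : LF C n) : GF C where
  obj X := (F.obj X).toGD
  map φ := (F.map φ).toHom
  map_id := F.map_id
  map_comp := F.map_comp

theorem fe (F : LF C n) (P : CO C) (t : Fin n) :
    FcComm (X := F.gf.cs P) (Y := F.gf.cs P) (fun k => (F.obj (P.P k)).e t) :=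
  fun k i _ x => ((F.map (P.fc k i)).e t x).symm

/-- The product total, with the operators `(-1)^k e t`. -/
abbrev tot (F : LF C n) (P : CO C) : LM n where
  toGD := (F.gf.cs P).Tot
  e t := totLin (X := F.gf.cs P) (Y := F.gf.cs P) (-1) fun k => (F.obj (P.P k)).e t
  e_e i j v := by
    funext k
    change (-1 : ℂ) ^ k • (F.obj (P.P k)).e i ((-1 : ℂ) ^ k • (F.obj (P.P k)).e j (v k)) =
      -((-1 : ℂ) ^ k • (F.obj (P.P k)).e j ((-1 : ℂ) ^ k • (F.obj (P.P k)).e i (v k)))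
    rw [map_smul, map_smul, (F.obj (P.P k)).e_e i j, smul_neg, smul_neg]
  e_d i v := by
    have h := totLin_D (X := F.gf.cs P) (Y := F.gf.cs P) (σ := -1) (F.fe P i)
      (fun k x => by rw [(F.obj (P.P k)).e_d, neg_one_smul]) v
    rw [neg_one_smul] at h
    exact h
  e_gr i m v hv := by
    have := totLin_gr (X := F.gf.cs P) (Y := F.gf.cs P) (σ := -1) (p := -(4 * (i : ℤ) + 3))
      (f := fun k => (F.obj (P.P k)).e i) (fun k m x hx => (F.obj (P.P k)).e_gr i m x hx) m v hv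
    exact this

theorem tot_e (F : LF C n) (P : CO C) (t : Fin n) (v : (F.tot P).V) (k : ℕ) :
    (F.tot P).e t v k = (-1 : ℂ) ^ k • (F.obj (P.P k)).e t (v k) := rfl

/-- A natural transformation. -/
structure Nat' (F F' : LF C n) where
  app : ∀ X, LM.Hom (F.obj X) (F'.obj X)
  nat : ∀ {X Z : C} (φ : X ⟶ Z) x, (app Z).f ((F.map φ).f x) = (F'.map φ).f ((app X).f x)

/-- The underlying natural transformation. -/
abbrev Nat'.gf {F F' : LF C n} (u : Nat' F F') : GF.Nat' F.gf F'.gf where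
  app X := (u.app X).toHom
  nat := u.nat

/-- The map of totals. -/
def Nat'.tot {F F' : LF C n} (u : Nat' F F') (P : CO C) : LM.Hom (F.tot P) (F'.tot P) where
  toHom := (u.gf.cs P).tot
  e t v := by
    funext k
    have h1 := Mor.tot_apply (u.gf.cs P) ((F.tot P).e t v) k
    have h2 := Mor.tot_apply (u.gf.cs P) v k
    refine h1.trans ?_
    change (u.app (P.P k)).f ((-1 : ℂ) ^ k • (F.obj (P.P k)).e t (v k)) =
      (-1 : ℂ) ^ k • (F'.obj (P.P k)).e t (((u.gf.cs P).tot.f v : ∀ k, _) k)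
    rw [h2, map_smul, (u.app (P.P k)).e]

theorem Nat'.tot_apply {F F' : LF C n} (u : Nat' F F') (P : CO C) (v : (F.tot P).V) (k : ℕ) :
    ((u.tot P).f v : ∀ k, (F'.obj (P.P k)).V) k = (u.app (P.P k)).f (v k) :=
  Mor.tot_apply (u.gf.cs P) v k

theorem Nat'.qis_tot {F F' : LF C n} (u : Nat' F F') (P : CO C)
    (h : ∀ k, Qis (u.app (P.P k)).toHom) : Qis (u.tot P).toHom :=
  (u.gf.cs P).qis_tot h

/-- The map from an object to the total: a morphism to the level zero with equal faces. -/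
def aug (F : LF C n) (P : CO C) {N : LM n} (j : LM.Hom N (F.obj (P.P 0)))
    (h : ∀ x, (F.map (P.fc 0 0)).f (j.f x) = (F.map (P.fc 0 1)).f (j.f x)) :
    LM.Hom N (F.tot P) where
  toHom := Aug.tot (X := F.gf.cs P) ⟨j.toHom, h⟩
  e t x := by
    have := totLin_aug (X := F.gf.cs P) (X' := F.gf.cs P) (⟨j.toHom, h⟩ : Aug (F.gf.cs P) N.toGD)
      (⟨j.toHom, h⟩ : Aug (F.gf.cs P) N.toGD) (-1) (fun k => (F.obj (P.P k)).e t)
      (fun x => N.e t x) (fun x => (j.e t x).symm) x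
    exact this.symm

theorem aug_zero (F : LF C n) (P : CO C) {N : LM n} (j : LM.Hom N (F.obj (P.P 0)))
    (h : ∀ x, (F.map (P.fc 0 0)).f (j.f x) = (F.map (P.fc 0 1)).f (j.f x)) (x : N.V) :
    ((F.aug P j h).f x : ∀ k, (F.obj (P.P k)).V) 0 = j.f x :=
  Aug.tot_zero (X := F.gf.cs P) (⟨j.toHom, h⟩ : Aug (F.gf.cs P) N.toGD) x

theorem aug_succ (F : LF C n) (P : CO C) {N : LM n} (j : LM.Hom N (F.obj (P.P 0)))
    (h : ∀ x, (F.map (P.fc 0 0)).f (j.f x) = (F.map (P.fc 0 1)).f (j.f x)) (x : N.V) (k : ℕ) :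
    ((F.aug P j h).f x : ∀ k, (F.obj (P.P k)).V) (k + 1) = 0 :=
  Aug.tot_succ (X := F.gf.cs P) (⟨j.toHom, h⟩ : Aug (F.gf.cs P) N.toGD) x k

end LF

/-! ### Gauge maps -/

/-- Derivatives on `W`, commuting with the `y i`. -/
structure Pop {W : SGD} (Y : LM.Yop n W) (p : Fin n → W.V →ₗ[ℂ] W.V) : Prop where
  p_p : ∀ i j w, p i (p j w) = - p j (p i w)
  s_p : ∀ i w, W.sg (p i w) = - p i (W.sg w)
  d_p : ∀ i w, p i (W.d w) = - W.d (p i w)
  y_p : ∀ i j w, p i (Y.y j w) = Y.y j (p i w)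
  p_gr : ∀ (i : Fin n) (m : ℤ) (w : W.V), w ∈ W.gr m → p i w ∈ W.gr (m - (4 * (i : ℤ) + 3))

theorem yE_mE {W : SGD} (Y : LM.Yop n W) (N : LM n) (t : Fin n) (z : W.V ⊗[ℂ] N.V) :
    LM.yE Y N t z = (Y.y t).rTensor N.V (mE W N.e t z) := by
  induction z using TensorProduct.induction_on with
  | zero => simp
  | tmul a x => rfl
  | add a b ha hb => simp only [map_add, ha, hb]

theorem tT_mE {W : SGD} (c : Fin n → W.V →ₗ[ℂ] W.V) (N : LM n) (t : Fin n)
    (z : W.V ⊗[ℂ] N.V) : tT W c N.e t z = (c t).rTensor N.V (mE W N.e t z) := by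
  induction z using TensorProduct.induction_on with
  | zero => simp
  | tmul a x => rfl
  | add a b ha hb => simp only [map_add, ha, hb]

section Pop

variable {W : SGD} {Y : LM.Yop n W} {p : Fin n → W.V →ₗ[ℂ] W.V} (h : Pop Y p)

/-- `W ⊗ N` with the operators `p t ⊗ 1`. -/
abbrev tensP (h : Pop Y p) (N : GD) : LM n where
  toGD := tens W N
  e t := (p t).rTensor N.V
  e_e i j z := by
    change W.V ⊗[ℂ] N.V at z
    change (p i).rTensor N.V ((p j).rTensor N.V z) = - (p j).rTensor N.V ((p i).rTensor N.V z)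
    induction z using TensorProduct.induction_on with
    | zero => simp
    | tmul a x => simp only [LinearMap.rTensor_tmul]; rw [h.p_p, neg_tmul]
    | add a b ha hb => simp only [map_add, ha, hb]; abel
  e_d i z := by
    change W.V ⊗[ℂ] N.V at z
    change (p i).rTensor N.V (td W N z) = - td W N ((p i).rTensor N.V z)
    induction z using TensorProduct.induction_on with
    | zero => simp
    | tmul a x =>
      simp only [LinearMap.rTensor_tmul, td_tmul, map_add, h.s_p, h.d_p, neg_tmul]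
      abel
    | add a b ha hb => simp only [map_add, ha, hb]; abel
  e_gr i m z hz := by
    refine map_tgr (T := (p i).rTensor N.V) ?_ hz
    intro k l a x hkl ha hx
    rw [LinearMap.rTensor_tmul]
    exact tmul_mem (by rw [← hkl]; ring) (h.p_gr i k a ha) hx

/-- The twisted `W ⊗ N` with the operators `p t ⊗ 1`. -/
abbrev twP (h : Pop Y p) (N : LM n) : LM n where
  toGD := LM.tw Y N
  e t := (p t).rTensor N.V
  e_e i j z := (tensP h N.toGD).e_e i j z
  e_d i z := by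
    change W.V ⊗[ℂ] N.V at z
    change (p i).rTensor N.V (LM.twd Y N z) = - LM.twd Y N ((p i).rTensor N.V z)
    have h1 : ∀ t z, (p i).rTensor N.V (LM.yE Y N t z) = - LM.yE Y N t ((p i).rTensor N.V z) := by
      intro t z
      induction z using TensorProduct.induction_on with
      | zero => simp
      | tmul a x =>
        simp only [LM.yE_tmul, LinearMap.rTensor_tmul, h.y_p, h.s_p, map_neg, neg_tmul, neg_neg]
      | add a b ha hb => simp only [map_add, ha, hb]; abel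
    rw [LM.twd_apply, LM.twd_apply, map_sub, map_sum]
    have h2 : (p i).rTensor N.V (td W N.toGD z) = - td W N.toGD ((p i).rTensor N.V z) :=
      (tensP h N.toGD).e_d i z
    rw [h2, Finset.sum_congr rfl fun t _ => h1 t z, Finset.sum_neg_distrib]
    abel
  e_gr i m z hz := (tensP h N.toGD).e_gr i m z hz

end Pop

/-- A family of objects of `LM n` with gauge maps on `W ⊗ N`. -/
structure GLM (C : Type 1) [Category.{0} C] {W : SGD} (Y : LM.Yop n W) : Type 1 where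
  N : C → LM n
  G : ∀ {X Z : C}, (X ⟶ Z) → GD.Hom (tens W (N X).toGD) (tens W (N Z).toGD)
  G_id : ∀ X z, (G (𝟙 X)).f z = z
  G_comp : ∀ {X Z Z' : C} (φ : X ⟶ Z) (ψ : Z ⟶ Z') z, (G (φ ≫ ψ)).f z = (G ψ).f ((G φ).f z)
  G_E : ∀ {X Z : C} (φ : X ⟶ Z) (t : Fin n) (z : W.V ⊗[ℂ] (N X).V),
    (G φ).f (mE W (N X).e t z) = mE W (N Z).e t ((G φ).f z)
  G_y : ∀ {X Z : C} (φ : X ⟶ Z) (t : Fin n) (z : W.V ⊗[ℂ] (N X).V),
    (G φ).f ((Y.y t).rTensor (N X).V z) = (Y.y t).rTensor (N Z).V ((G φ).f z)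

namespace GLM

variable {C : Type 1} [Category.{0} C] {W : SGD} {Y : LM.Yop n W} (L : GLM C Y)

/-- The gauge maps commute with operators on `W`. -/
def Comm (c : Fin n → W.V →ₗ[ℂ] W.V) : Prop :=
  ∀ {X Z : C} (φ : X ⟶ Z) (t : Fin n) (z : W.V ⊗[ℂ] (L.N X).V),
    (L.G φ).f ((c t).rTensor (L.N X).V z) = (c t).rTensor (L.N Z).V ((L.G φ).f z)

/-- The functor `W ⊗ N`. -/
abbrev gf : GF C where
  obj X := tens W (L.N X).toGD
  map φ := L.G φ
  map_id := L.G_id
  map_comp := L.G_comp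

theorem G_yE {X Z : C} (φ : X ⟶ Z) (t : Fin n) (z : W.V ⊗[ℂ] (L.N X).V) :
    (L.G φ).f (LM.yE Y (L.N X) t z) = LM.yE Y (L.N Z) t ((L.G φ).f z) := by
  rw [yE_mE, yE_mE, L.G_y, L.G_E]

/-- The functor `(W ⊗ N)_tw`. -/
abbrev tw : GF C where
  obj X := LM.tw Y (L.N X)
  map {X Z} φ :=
    { f := (L.G φ).f
      comm := fun z => by
        change (L.G φ).f (LM.twd Y (L.N X) z) = LM.twd Y (L.N Z) ((L.G φ).f z)
        rw [LM.twd_apply, LM.twd_apply, map_sub, map_sum]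
        have h2 : (L.G φ).f (td W (L.N X).toGD z) = td W (L.N Z).toGD ((L.G φ).f z) :=
          (L.G φ).comm z
        rw [h2, Finset.sum_congr rfl fun t _ => L.G_yE φ t z]
      deg := (L.G φ).deg }
  map_id := L.G_id
  map_comp := L.G_comp

variable {c p : Fin n → W.V →ₗ[ℂ] W.V}

theorem G_tT (hc : L.Comm c) {X Z : C} (φ : X ⟶ Z) (t : Fin n) (z : W.V ⊗[ℂ] (L.N X).V) :
    (L.G φ).f (tT W c (L.N X).e t z) = tT W c (L.N Z).e t ((L.G φ).f z) := by
  rw [tT_mE, tT_mE, hc, L.G_E]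

/-- The exponential, natural for the gauge maps. -/
def ex (h : Cop Y c) (hc : L.Comm c) : GF.Nat' L.gf L.tw where
  app X := exH h (L.N X)
  nat φ z := (eT_map (u := (L.G φ).f) (fun t z => L.G_tT hc φ t z) z).symm

/-- The inverse of the exponential. -/
def exi (h : Cop Y c) (hc : L.Comm c) : GF.Nat' L.tw L.gf where
  app X := exI h (L.N X)
  nat φ z := (eN_map (u := (L.G φ).f) (fun t z => L.G_tT hc φ t z) z).symm

theorem qis_ex (h : Cop Y c) (hc : L.Comm c) (P : CO C) : Qis ((L.ex h hc).cs P).tot :=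
  (L.ex h hc).qis_tot P fun k => qis_exH h (L.N (P.P k))

theorem qis_exi (h : Cop Y c) (hc : L.Comm c) (P : CO C) : Qis ((L.exi h hc).cs P).tot :=
  (L.exi h hc).qis_tot P fun k => qis_exI h (L.N (P.P k))

theorem ex_exi (h : Cop Y c) (hc : L.Comm c) (P : CO C) (v : (L.tw.cs P).Tot.V) :
    ((L.ex h hc).cs P).tot.f (((L.exi h hc).cs P).tot.f v) = v := by
  funext k
  rw [Mor.tot_apply]
  refine (congrArg _ (Mor.tot_apply ((L.exi h hc).cs P) v k)).trans ?_
  exact exH_exI h (L.N (P.P k)) (v k)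

theorem exi_ex (h : Cop Y c) (hc : L.Comm c) (P : CO C) (v : (L.gf.cs P).Tot.V) :
    ((L.exi h hc).cs P).tot.f (((L.ex h hc).cs P).tot.f v) = v := by
  funext k
  rw [Mor.tot_apply]
  refine (congrArg _ (Mor.tot_apply ((L.ex h hc).cs P) v k)).trans ?_
  exact exI_exH h (L.N (P.P k)) (v k)

/-- The functor `W ⊗ N` with the operators `p t ⊗ 1`. -/
abbrev lf (h : Pop Y p) (hp : L.Comm p) : LF C n where
  obj X := tensP h (L.N X).toGD
  map φ := ⟨L.G φ, fun t z => hp φ t z⟩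
  map_id := L.G_id
  map_comp := L.G_comp

/-- The functor `(W ⊗ N)_tw` with the operators `p t ⊗ 1`. -/
abbrev lt (h : Pop Y p) (hp : L.Comm p) : LF C n where
  obj X := twP h (L.N X)
  map φ := ⟨L.tw.map φ, fun t z => hp φ t z⟩
  map_id := L.G_id
  map_comp := L.G_comp

/-- The operators `e t` after the exponential. -/
theorem e_ex (h : CopP Y c p) (hc : L.Comm c) (hP : Pop Y p) (hp : L.Comm p) (P : CO C)
    (t : Fin n) (v : (L.gf.cs P).Tot.V) :
    ((L.lt hP hp).tot P).e t (((L.ex h.toCop hc).cs P).tot.f v) =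
      ((L.ex h.toCop hc).cs P).tot.f (((L.lf hP hp).tot P).e t v) +
      ((L.ex h.toCop hc).cs P).tot.f
        (totLin (X := L.gf.cs P) (Y := L.gf.cs P) (-1) (fun k => mE W (L.N (P.P k)).e t) v) := by
  funext k
  have h1 := Mor.tot_apply ((L.ex h.toCop hc).cs P) v k
  have h2 := Mor.tot_apply ((L.ex h.toCop hc).cs P) (((L.lf hP hp).tot P).e t v) k
  have h3 := Mor.tot_apply ((L.ex h.toCop hc).cs P)
    (totLin (X := L.gf.cs P) (Y := L.gf.cs P) (-1) (fun k => mE W (L.N (P.P k)).e t) v) k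
  change (-1 : ℂ) ^ k • (p t).rTensor _ ((((L.ex h.toCop hc).cs P).tot.f v : ∀ k, _) k) =
    (((L.ex h.toCop hc).cs P).tot.f (((L.lf hP hp).tot P).e t v) : ∀ k, _) k +
    (((L.ex h.toCop hc).cs P).tot.f
        (totLin (X := L.gf.cs P) (Y := L.gf.cs P) (-1) (fun k => mE W (L.N (P.P k)).e t) v) :
          ∀ k, _) k
  rw [h1, h2, h3]
  have h4 := h.p_exH (L.N (P.P k)) t (v k)
  change (-1 : ℂ) ^ k • (p t).rTensor _ ((exH h.toCop (L.N (P.P k))).f (v k)) =
    (exH h.toCop (L.N (P.P k))).f ((-1 : ℂ) ^ k • (p t).rTensor _ (v k)) +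
    (exH h.toCop (L.N (P.P k))).f ((-1 : ℂ) ^ k • mE W (L.N (P.P k)).e t (v k))
  rw [h4, map_smul, map_smul, smul_add]
  rfl

/-- The map `x ↦ exp (o ⊗ j x)` to level zero. -/
def inc0 (h : CopP Y c p) (hP : Pop Y p) {o : W.V} (hd : W.d o = 0) (hs : W.sg o = o)
    (hg : o ∈ W.gr 0) (ho : ∀ t, p t o = 0) {N' : LM n} (X : C) (j : LM.Hom N' (L.N X)) :
    LM.Hom N' (twP hP (L.N X)) where
  toHom := (etaH h.toCop (L.N X) o hd hs hg).comp j.toHom
  e t x := by
    change (exH h.toCop (L.N X)).f (o ⊗ₜ[ℂ] j.f (N'.e t x)) =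
      (p t).rTensor (L.N X).V ((exH h.toCop (L.N X)).f (o ⊗ₜ[ℂ] j.f x))
    rw [h.p_exH_one (L.N X) t (ho t) hs, j.e]

/-- The map `x ↦ exp (o ⊗ j x)` to the total. -/
def inc (h : CopP Y c p) (hc : L.Comm c) (hP : Pop Y p) (hp : L.Comm p) {o : W.V}
    (hd : W.d o = 0) (hs : W.sg o = o) (hg : o ∈ W.gr 0) (ho : ∀ t, p t o = 0) (P : CO C)
    {N' : LM n} (j : LM.Hom N' (L.N (P.P 0)))
    (hj : ∀ x, (L.G (P.fc 0 0)).f (o ⊗ₜ[ℂ] j.f x) = (L.G (P.fc 0 1)).f (o ⊗ₜ[ℂ] j.f x)) :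
    LM.Hom N' ((L.lt hP hp).tot P) :=
  (L.lt hP hp).aug P (L.inc0 h hP hd hs hg ho (P.P 0) j) fun x => by
    have h1 := (L.ex h.toCop hc).nat (P.fc 0 0) (o ⊗ₜ[ℂ] j.f x)
    have h2 := (L.ex h.toCop hc).nat (P.fc 0 1) (o ⊗ₜ[ℂ] j.f x)
    refine h1.symm.trans (Eq.trans ?_ h2)
    exact congrArg ((L.ex h.toCop hc).app (P.P (0 + 1))).f (hj x)

theorem inc_zero (h : CopP Y c p) (hc : L.Comm c) (hP : Pop Y p) (hp : L.Comm p) {o : W.V}
    (hd : W.d o = 0) (hs : W.sg o = o) (hg : o ∈ W.gr 0) (ho : ∀ t, p t o = 0) (P : CO C)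
    {N' : LM n} (j : LM.Hom N' (L.N (P.P 0)))
    (hj : ∀ x, (L.G (P.fc 0 0)).f (o ⊗ₜ[ℂ] j.f x) = (L.G (P.fc 0 1)).f (o ⊗ₜ[ℂ] j.f x)) (x : N'.V) :
    ((L.inc h hc hP hp hd hs hg ho P j hj).f x : ∀ k, W.V ⊗[ℂ] (L.N (P.P k)).V) 0 =
      (exH h.toCop (L.N (P.P 0))).f (o ⊗ₜ[ℂ] j.f x) :=
  (L.lt hP hp).aug_zero P _ _ x

theorem inc_succ (h : CopP Y c p) (hc : L.Comm c) (hP : Pop Y p) (hp : L.Comm p) {o : W.V}
    (hd : W.d o = 0) (hs : W.sg o = o) (hg : o ∈ W.gr 0) (ho : ∀ t, p t o = 0) (P : CO C)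
    {N' : LM n} (j : LM.Hom N' (L.N (P.P 0)))
    (hj : ∀ x, (L.G (P.fc 0 0)).f (o ⊗ₜ[ℂ] j.f x) = (L.G (P.fc 0 1)).f (o ⊗ₜ[ℂ] j.f x)) (x : N'.V)
    (k : ℕ) : ((L.inc h hc hP hp hd hs hg ho P j hj).f x :
      ∀ k, W.V ⊗[ℂ] (L.N (P.P k)).V) (k + 1) = 0 :=
  (L.lt hP hp).aug_succ P _ _ x k

end GLM

/-! ### Functoriality -/

section functoriality

variable {W : SGD} {Y : LM.Yop n W} {p : Fin n → W.V →ₗ[ℂ] W.V}

theorem lTensor_td {N N' : LM n} (u : LM.Hom N N') (z : W.V ⊗[ℂ] N.V) :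
    u.f.lTensor W.V (td W N.toGD z) = td W N'.toGD (u.f.lTensor W.V z) := by
  induction z using TensorProduct.induction_on with
  | zero => simp
  | tmul a x => simp only [td_tmul, map_add, LinearMap.lTensor_tmul, u.comm]
  | add a b ha hb => simp only [map_add, ha, hb]

theorem lTensor_yE {N N' : LM n} (u : LM.Hom N N') (t : Fin n) (z : W.V ⊗[ℂ] N.V) :
    u.f.lTensor W.V (LM.yE Y N t z) = LM.yE Y N' t (u.f.lTensor W.V z) := by
  induction z using TensorProduct.induction_on with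
  | zero => simp
  | tmul a x => simp only [LM.yE_tmul, LinearMap.lTensor_tmul, u.e]
  | add a b ha hb => simp only [map_add, ha, hb]

theorem lTensor_mem {N N' : LM n} (u : LM.Hom N N') (m : ℤ) (z : W.V ⊗[ℂ] N.V)
    (hz : z ∈ tgr W.toGD N.toGD m) : u.f.lTensor W.V z ∈ tgr W.toGD N'.toGD m :=
  map_tgr (T := u.f.lTensor W.V) (fun i j a x hij ha hx => by
    rw [LinearMap.lTensor_tmul]
    exact tmul_mem hij ha (u.deg j x hx)) hz

/-- `1 ⊗ u` on the twisted tensor products. -/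
def twU (h : Pop Y p) {N N' : LM n} (u : LM.Hom N N') : LM.Hom (twP h N) (twP h N') where
  f := u.f.lTensor W.V
  comm z := by
    change u.f.lTensor W.V (LM.twd Y N z) = LM.twd Y N' (u.f.lTensor W.V z)
    rw [LM.twd_apply, LM.twd_apply, map_sub, map_sum, lTensor_td,
      Finset.sum_congr rfl fun t _ => lTensor_yE u t z]
  deg m z hz := lTensor_mem u m z hz
  e t z := by
    change W.V ⊗[ℂ] N.V at z
    change u.f.lTensor W.V ((p t).rTensor N.V z) = (p t).rTensor N'.V (u.f.lTensor W.V z)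
    induction z using TensorProduct.induction_on with
    | zero => simp
    | tmul a x => simp only [LinearMap.lTensor_tmul, LinearMap.rTensor_tmul]
    | add a b ha hb => simp only [map_add, ha, hb]

theorem twU_f (h : Pop Y p) {N N' : LM n} (u : LM.Hom N N') (z : W.V ⊗[ℂ] N.V) :
    (twU h u).f z = u.f.lTensor W.V z := rfl

variable {C : Type 1} [Category.{0} C]

/-- A morphism of families with gauge maps. -/
structure GLM.Mor (L L' : GLM C Y) where
  app : ∀ X, LM.Hom (L.N X) (L'.N X)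
  nat : ∀ {X Z : C} (φ : X ⟶ Z) (z : W.V ⊗[ℂ] (L.N X).V),
    (L'.G φ).f ((app X).f.lTensor W.V z) = (app Z).f.lTensor W.V ((L.G φ).f z)

/-- The induced natural transformation of the twisted functors. -/
def GLM.Mor.lt {L L' : GLM C Y} (u : GLM.Mor L L') (h : Pop Y p) (hp : L.Comm p)
    (hp' : L'.Comm p) : LF.Nat' (L.lt h hp) (L'.lt h hp') where
  app X := twU h (u.app X)
  nat φ z := (u.nat φ z).symm

/-- The exponential is natural. -/
theorem GLM.Mor.ex {L L' : GLM C Y} (u : GLM.Mor L L') {c : Fin n → W.V →ₗ[ℂ] W.V} (h : Cop Y c)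
    (X : C) (z : W.V ⊗[ℂ] (L.N X).V) :
    (u.app X).f.lTensor W.V ((exH h (L.N X)).f z) =
      (exH h (L'.N X)).f ((u.app X).f.lTensor W.V z) := exH_nat h (u.app X) z

/-- The inclusion `inc` is natural. -/
theorem GLM.Mor.inc {L L' : GLM C Y} (u : GLM.Mor L L') {c : Fin n → W.V →ₗ[ℂ] W.V}
    (h : CopP Y c p) (hc : L.Comm c) (hc' : L'.Comm c) (hP : Pop Y p) (hp : L.Comm p)
    (hp' : L'.Comm p) {o : W.V} (hd : W.d o = 0) (hs : W.sg o = o) (hg : o ∈ W.gr 0)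
    (ho : ∀ t, p t o = 0) (P : CO C) {N N' : LM n} (j : LM.Hom N (L.N (P.P 0)))
    (j' : LM.Hom N' (L'.N (P.P 0)))
    (hj : ∀ x, (L.G (P.fc 0 0)).f (o ⊗ₜ[ℂ] j.f x) = (L.G (P.fc 0 1)).f (o ⊗ₜ[ℂ] j.f x))
    (hj' : ∀ x, (L'.G (P.fc 0 0)).f (o ⊗ₜ[ℂ] j'.f x) = (L'.G (P.fc 0 1)).f (o ⊗ₜ[ℂ] j'.f x))
    (v : LM.Hom N N') (hv : ∀ x, (u.app (P.P 0)).f (j.f x) = j'.f (v.f x)) (x : N.V) :
    ((u.lt hP hp hp').tot P).f ((L.inc h hc hP hp hd hs hg ho P j hj).f x) =
      (L'.inc h hc' hP hp' hd hs hg ho P j' hj').f (v.f x) := by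
  funext k
  rw [LF.Nat'.tot_apply]
  match k with
  | 0 =>
    refine (congrArg _ (L.inc_zero h hc hP hp hd hs hg ho P j hj x)).trans ?_
    refine Eq.trans ?_ (L'.inc_zero h hc' hP hp' hd hs hg ho P j' hj' (v.f x)).symm
    change (u.app (P.P 0)).f.lTensor W.V ((exH h.toCop (L.N (P.P 0))).f (o ⊗ₜ[ℂ] j.f x)) = _
    rw [u.ex, LinearMap.lTensor_tmul, hv]
  | (k + 1) =>
    refine (congrArg _ (L.inc_succ h hc hP hp hd hs hg ho P j hj x k)).trans ?_
    refine Eq.trans ?_ (L'.inc_succ h hc' hP hp' hd hs hg ho P j' hj' (v.f x) k).symm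
    exact map_zero _

end functoriality

end

end Vale.Agent.P286.H549
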