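import Vale.Agent.P286.H867.Yop
import Vale.Agent.P286.H549.XiTw

/-!
# The multiplications by the generators and the derivatives on `Wk I n`
-/

namespace Vale.Agent.P286.H549

open TensorProduct H847 H847.GD H847.SGD H64 H867

noncomputable section

set_option linter.unusedSectionVars false

variable (I : Type) [Fintype I] [DecidableEq I] (n : ℕ)

/-- The multiplications by the odd generators. -/
abbrev xop (t : Fin n) : (WK I n).V →ₗ[ℂ] (WK I n).V := LinearMap.mulLeft ℂ (Wk.xi I n t)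

/-- The derivatives. -/
abbrev pop (t : Fin n) : (WK I n).V →ₗ[ℂ] (WK I n).V := Wk.e I n t

variable {I n}

theorem nmul (a b : Wk I n) : (-a) * b = -(a * b) := neg_mul a b

theorem xi_xi (i j : Fin n) (w : Wk I n) :
    Wk.xi I n i * (Wk.xi I n j * w) = - (Wk.xi I n j * (Wk.xi I n i * w)) := by
  rw [← mul_assoc, ← mul_assoc, Wk.xi, Wk.xi, Wk.gn_gn, nmul]

theorem cop_wk : Cop (yop I n n) (xop I n) where
  s_c i w := by
    change Wk.sgA I n (Wk.xi I n i * (w : Wk I n)) = -(Wk.xi I n i * Wk.sgA I n w)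
    rw [map_mul, Wk.sgA_xi, nmul]
  d_c i w := by
    change Wk.d I n (Wk.xi I n i * (w : Wk I n)) + Wk.xi I n i * Wk.d I n w = Wk.y I n i * w
    rw [Wk.d_mul, Wk.d_xi, Wk.sgA_xi, nmul, neg_add_cancel_right]
  c_c i j w := xi_xi i j w
  y_c i j w := by
    change Wk.y I n i * (Wk.xi I n j * (w : Wk I n)) = Wk.xi I n j * (Wk.y I n i * w)
    rw [← mul_assoc, Wk.y_comm, mul_assoc]
  c_gr i m w hw := by
    have h := Wk.mul_gr (Wk.xi_gr (I := I) i) hw
    rw [add_comm] at h
    exact h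

theorem copP_wk : CopP (yop I n n) (xop I n) (pop I n) where
  toCop := cop_wk
  p_c i j w := by
    change Wk.e I n i (Wk.xi I n j * (w : Wk I n)) + Wk.xi I n j * Wk.e I n i w = _
    rw [Wk.e_mul, Wk.e_xi, Wk.sgA_xi, nmul, neg_add_cancel_right]
    split_ifs with h
    · rw [one_mul]
    · rw [zero_mul]
  s_p i w := Wk.e_sg i w

theorem pop_wk : Pop (yop I n n) (pop I n) where
  p_p i j w := Wk.e_e i j w
  s_p i w := Wk.e_sg i w
  d_p i w := Wk.e_d i w
  y_p i j w := Wk.e_y_mul i j w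
  p_gr i _ _ hw := Wk.e_gr i hw

theorem d_one_wk : (WK I n).d (1 : Wk I n) = 0 := Wk.d_one

theorem sg_one_wk : (WK I n).sg (1 : Wk I n) = (1 : Wk I n) := map_one (Wk.sgA I n)

theorem one_gr_wk : (1 : Wk I n) ∈ (WK I n).gr 0 := Wk.one_gr

theorem e_one_wk (t : Fin n) : pop I n t (1 : Wk I n) = 0 := by
  have h := Wk.e_mul (I := I) t (1 : Wk I n) 1
  rw [mul_one, map_one (Wk.sgA I n), one_mul, mul_one, left_eq_add] at h
  exact h

end

end Vale.Agent.P286.H549
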