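import Vale.Agent.P286.H549.XiTw
import Vale.Agent.P286.H761.Xi
import Vale.Agent.P286.H867.TwA

/-!
# The twisted version of `Xi`

For a family `F` of differential graded modules over the forms with operators `e i`, the functor
`X ↦ (W ⊗ F(X))_tw` and its product total `XiTw`, with the operators `e i` of `W`.
-/

namespace Vale.Agent.P286.H549

open CategoryTheory TensorProduct H847 H847.GD H847.SGD H64 H761 H761.CS H697 H867
  Vale.Agent.P286.Gen Vale.Agent.P286.H295 Vale.Agent.P286.St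

noncomputable section

variable {n : ℕ}

theorem homx {M N : GD} {u v : GD.Hom M N} (h : ∀ x, u.f x = v.f x) : u = v := by
  obtain ⟨f, _, _⟩ := u
  obtain ⟨g, _, _⟩ := v
  have e : f = g := LinearMap.ext h
  subst e
  rfl

/-! ### The operators as cochains -/

section Test

variable {T : TSite}

theorem deg_odd (i : ℤ) : ¬ Even (-(4 * i + 3)) := by
  rw [even_neg, Int.not_even_iff_odd]
  exact ⟨2 * i + 1, by ring⟩

/-- The operator `e i` of a family, as a cochain. -/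
def ecoch {F : OmF T} (E : OEF F n) (i : Fin n) : OmF.Coch F F (-(4 * (i : ℤ) + 3)) where
  f X := (E.E X).e i
  deg X m x hx := by
    have := (E.E X).e_gr i m x hx
    rwa [sub_eq_add_neg] at this
  smul X w x := by
    rw [(E.E X).e_smul, Om.sgz_odd (deg_odd _)]
  tr φ x := (E.nat φ i x).symm

/-- Closed maps of degree zero between families, compatible with the operators. -/
structure EHom {F F' : OmF T} (E : OEF F n) (E' : OEF F' n) where
  c : OmF.Coch F F' 0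
  comm : ∀ X x, c.f X ((F.F X).M.d x) = (F'.F X).M.d (c.f X x)
  e : ∀ X i x, c.f X ((E.E X).e i x) = (E'.E X).e i (c.f X x)

/-- The value at an object. -/
abbrev EHom.app {F F' : OmF T} {E : OEF F n} {E' : OEF F' n} (a : EHom E E') (X : T.C) :
    LM.Hom (E.E X).lm (E'.E X).lm where
  f := a.c.f X
  comm := a.comm X
  deg m x hx := by
    have := a.c.deg X m x hx
    rwa [add_zero] at this
  e i x := a.e X i x

end Test

theorem tco_odd (W : SGD) {p : ℤ} (hp : ¬ Even p) {F : GD} (e : Fin n → F.V →ₗ[ℂ] F.V)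
    (i : Fin n) (z : W.V ⊗[ℂ] F.V) : tco W p (e i) z = mE W e i z := by
  induction z using TensorProduct.induction_on with
  | zero => simp
  | tmul w x => rw [tco_tmul, sgp_odd hp, mE_tmul]
  | add a b ha hb => rw [map_add, map_add, ha, hb]

theorem tco_zero (W : SGD) {F G : GD} (f : F.V →ₗ[ℂ] G.V) (z : W.V ⊗[ℂ] F.V) :
    tco W 0 f z = f.lTensor W.V z := by
  induction z using TensorProduct.induction_on with
  | zero => simp
  | tmul w x => rw [tco_tmul, sgp_zero, LinearMap.lTensor_tmul]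
  | add a b ha hb => rw [map_add, map_add, ha, hb]

variable {N : ℕ} {Γ : Gps N} [hs : Algebra.Smooth ℂ (Of Γ)] {W : SGD}

/-- The properties of the gauge functor with respect to the operators `y`, `c` and the element
`o` (the unit) of `W`. -/
structure GY (G : GauX Γ W n) (Y : LM.Yop n W) (c : Fin n → W.V →ₗ[ℂ] W.V) (o : W.V) : Prop where
  map_y : ∀ (F : OmF (BGT Γ)) {X Z : Gen.BGObj Γ} (φ : X ⟶ Z) (t : Fin n)
    (z : W.V ⊗[ℂ] (F.F X).M.V), (G.map F φ).f ((Y.y t).rTensor (F.F X).M.V z) =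
      (Y.y t).rTensor (F.F Z).M.V ((G.map F φ).f z)
  map_c : ∀ (F : OmF (BGT Γ)) {X Z : Gen.BGObj Γ} (φ : X ⟶ Z) (t : Fin n)
    (z : W.V ⊗[ℂ] (F.F X).M.V), (G.map F φ).f ((c t).rTensor (F.F X).M.V z) =
      (c t).rTensor (F.F Z).M.V ((G.map F φ).f z)
  map_o : ∀ (F : OmF (BGT Γ)) {X Z : Gen.BGObj Γ} (φ : X ⟶ Z) (x : (F.F X).M.V),
    (G.map F φ).f (o ⊗ₜ[ℂ] x) = o ⊗ₜ[ℂ] (F.t φ).f x
  cp : CopP Y c G.e
  pp : Pop Y G.e
  d_o : W.d o = 0
  sg_o : W.sg o = o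
  gr_o : o ∈ W.gr 0
  e_o : ∀ t, G.e t o = 0
  eps_o : G.eps o = 1
  eps_y : ∀ t w, G.eps (Y.y t w) = 0
  eps_c : ∀ t w, G.eps (c t w) = 0

namespace GY

variable {G : GauX Γ W n} {Y : LM.Yop n W} {c : Fin n → W.V →ₗ[ℂ] W.V} {o : W.V}
  (H : GY G Y c o) {F F' F'' : OmF (BGT Γ)} (E : OEF F n) {E' : OEF F' n} {E'' : OEF F'' n}

/-- The family of the modules `F(X)` with the gauge maps on `W ⊗ F(X)`. -/
abbrev glm : GLM (Gen.BGObj Γ) Y where
  N X := (E.E X).lm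
  G φ := G.map F φ
  G_id X z := G.map_id F X z
  G_comp φ ψ z := G.map_comp F φ ψ z
  G_E {X Z} φ t z := by
    have h := G.map_co (ecoch E t) φ z
    have h1 : tco W (-(4 * (t : ℤ) + 3)) ((ecoch E t).f X) z = mE W (E.E X).lm.e t z :=
      tco_odd W (deg_odd _) (F := (F.F X).M) (E.E X).e t z
    have h2 : tco W (-(4 * (t : ℤ) + 3)) ((ecoch E t).f Z) ((G.map F φ).f z) =
        mE W (E.E Z).lm.e t ((G.map F φ).f z) :=
      tco_odd W (deg_odd _) (F := (F.F Z).M) (E.E Z).e t _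
    rw [h1, h2] at h
    exact h.symm
  G_y φ t z := H.map_y F φ t z

omit hs in
theorem comm_c : (H.glm E).Comm c := fun φ t z => H.map_c F φ t z

omit hs in
theorem comm_p : (H.glm E).Comm G.e := fun φ t z => (G.map_e F φ t z).symm

/-- Maps of families give maps of the gauge families. -/
abbrev mor (a : EHom E E') : GLM.Mor (H.glm E) (H.glm E') where
  app X := a.app X
  nat {X Z} φ z := by
    have h := G.map_co a.c φ z
    have h1 : tco W 0 (a.c.f X) z = (a.c.f X).lTensor W.V z :=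
      tco_zero W (F := (F.F X).M) (G := (F'.F X).M) _ z
    have h2 : tco W 0 (a.c.f Z) ((G.map F φ).f z) = (a.c.f Z).lTensor W.V ((G.map F φ).f z) :=
      tco_zero W (F := (F.F Z).M) (G := (F'.F Z).M) _ _
    rw [h1, h2] at h
    exact h.symm

/-- **The object `XiTw`.** -/
abbrev XiTw : LM n := ((H.glm E).lt H.pp (H.comm_p E)).tot (ptS Γ).co

theorem XiTw_e (t : Fin n) (v : (H.XiTw E).V) (k : ℕ) :
    ((H.XiTw E).e t v : ∀ k, W.V ⊗[ℂ] (F.F ((ptS Γ).P k)).M.V) k =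
      (-1 : ℂ) ^ k • (G.e t).rTensor (F.F ((ptS Γ).P k)).M.V (v k) := rfl

/-- `XiTw` on maps. -/
def map {E : OEF F n} (a : EHom E E') : LM.Hom (H.XiTw E) (H.XiTw E') :=
  ((H.mor E a).lt H.pp (H.comm_p E) (H.comm_p E')).tot (ptS Γ).co

theorem map_apply {E : OEF F n} (a : EHom E E') (v : (H.XiTw E).V) (k : ℕ) :
    ((H.map a).f v : ∀ k, W.V ⊗[ℂ] (F'.F ((ptS Γ).P k)).M.V) k =
      (a.c.f ((ptS Γ).P k)).lTensor W.V (v k) :=
  LF.Nat'.tot_apply _ _ _ _

theorem map_id {E : OEF F n} (a : EHom E E) (h : ∀ X x, a.c.f X x = x) (v : (H.XiTw E).V) :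
    (H.map a).f v = v := by
  funext k
  rw [map_apply]
  have e : a.c.f ((ptS Γ).P k) = LinearMap.id := LinearMap.ext fun x => h _ x
  rw [e, LinearMap.lTensor_id]
  rfl

theorem map_comp {E : OEF F n} (a : EHom E E') (b : EHom E' E'') (c' : EHom E E'')
    (h : ∀ X x, c'.c.f X x = b.c.f X (a.c.f X x)) (v : (H.XiTw E).V) :
    (H.map c').f v = (H.map b).f ((H.map a).f v) := by
  funext k
  rw [map_apply, map_apply, map_apply]
  have e : c'.c.f ((ptS Γ).P k) = (b.c.f ((ptS Γ).P k)).comp (a.c.f ((ptS Γ).P k)) :=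
    LinearMap.ext fun x => h _ x
  rw [e, LinearMap.lTensor_comp]
  rfl

/-- The map `exp` from the untwisted version. -/
def ext : GD.Hom (G.Xi F).toGD (H.XiTw E).toGD :=
  (((H.glm E).ex H.cp.toCop (H.comm_c E)).cs (ptS Γ).co).tot

/-- The inverse of `exp`. -/
def exti : GD.Hom (H.XiTw E).toGD (G.Xi F).toGD :=
  (((H.glm E).exi H.cp.toCop (H.comm_c E)).cs (ptS Γ).co).tot

theorem qis_ext : Qis (H.ext E) := (H.glm E).qis_ex H.cp.toCop (H.comm_c E) (ptS Γ).co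

theorem qis_exti : Qis (H.exti E) := (H.glm E).qis_exi H.cp.toCop (H.comm_c E) (ptS Γ).co

theorem ext_exti (v : (H.XiTw E).V) : (H.ext E).f ((H.exti E).f v) = v :=
  (H.glm E).ex_exi H.cp.toCop (H.comm_c E) (ptS Γ).co v

theorem exti_ext (v : (G.Xi F).V) : (H.exti E).f ((H.ext E).f v) = v :=
  (H.glm E).exi_ex H.cp.toCop (H.comm_c E) (ptS Γ).co v

theorem ext_apply (v : (G.Xi F).V) (k : ℕ) :
    ((H.ext E).f v : ∀ k, W.V ⊗[ℂ] (F.F ((ptS Γ).P k)).M.V) k =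
      eT (tT W c (E.E ((ptS Γ).P k)).lm.e) (v k) :=
  Mor.tot_apply _ v k

/-- The map `ε ⊗ 1` at level zero. -/
def piTw : GD.Hom (H.XiTw E).toGD (F.F (BPt Γ)).M :=
  CS.fromZero (X := (H.glm E).tw.cs (ptS Γ).co)
    (epsH Y (E.E (BPt Γ)).lm G.eps G.eps_d G.eps_sg H.eps_y G.eps_gr)

theorem piTw_apply (v : (H.XiTw E).V) :
    (H.piTw E).f v = (G.ep (F.F (BPt Γ)).M).f (v 0) := rfl

omit hs in
include H in
theorem ep_tT (t : Fin n) (z : W.V ⊗[ℂ] (F.F (BPt Γ)).M.V) :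
    (G.ep (F.F (BPt Γ)).M).f (tT W c (E.E (BPt Γ)).lm.e t z) = 0 := by
  induction z using TensorProduct.induction_on with
  | zero => rw [LinearMap.map_zero, LinearMap.map_zero]
  | tmul w x => rw [tT_tmul, G.ep_tmul, H.eps_c, zero_smul]
  | add a b ha hb => rw [LinearMap.map_add, LinearMap.map_add, ha, hb, add_zero]

theorem piTw_ext (v : (G.Xi F).V) : (H.piTw E).f ((H.ext E).f v) = (G.pi F).f v := by
  rw [piTw_apply, ext_apply, G.pi_apply]
  exact eT_ret (q := (G.ep (F.F (BPt Γ)).M).f) (fun t z => H.ep_tT E t z) (v 0)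

/-- If `pi` is a quasi-isomorphism, so is `piTw`. -/
theorem qis_piTw (hF : Qis (G.pi F)) : Qis (H.piTw E) := by
  refine Qis.of_comp_right (H.qis_ext E) ?_
  have e : (H.piTw E).comp (H.ext E) = G.pi F := homx (H.piTw_ext E)
  rw [e]
  exact hF

/-- `piTw` is natural. -/
theorem piTw_map {E : OEF F n} (a : EHom E E') (v : (H.XiTw E).V) :
    (H.piTw E').f ((H.map a).f v) = a.c.f (BPt Γ) ((H.piTw E).f v) := by
  rw [piTw_apply, piTw_apply, map_apply]
  have h1 := tco_zero W (F := (F.F (BPt Γ)).M) (G := (F'.F (BPt Γ)).M) (a.c.f (BPt Γ)) (v 0)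
  exact (congrArg _ h1.symm).trans
    (epT_tco W G.eps G.eps_d G.eps_sg G.eps_gr 0 (a.c.f (BPt Γ)) (v 0))

section Inc

variable {M : LM n} (j : LM.Hom M (E.E (BPt Γ)).lm)
    (hj : ∀ x, (F.t ((ptS Γ).co.fc 0 0)).f (j.f x) = (F.t ((ptS Γ).co.fc 0 1)).f (j.f x))

/-- The inclusion of a module `M` with flat values in `F(pt)`. -/
def inc : LM.Hom M (H.XiTw E) :=
  (H.glm E).inc H.cp (H.comm_c E) H.pp (H.comm_p E) H.d_o H.sg_o H.gr_o H.e_o (ptS Γ).co j
    fun x => by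
      have h1 := H.map_o F ((ptS Γ).co.fc 0 0) (j.f x)
      have h2 := H.map_o F ((ptS Γ).co.fc 0 1) (j.f x)
      refine h1.trans (Eq.trans ?_ h2.symm)
      exact congrArg (fun y => o ⊗ₜ[ℂ] y) (hj x)

theorem inc_zero (x : M.V) : ((H.inc E j hj).f x : ∀ k, W.V ⊗[ℂ] (F.F ((ptS Γ).P k)).M.V) 0 =
    eT (tT W c (E.E (BPt Γ)).lm.e) (o ⊗ₜ[ℂ] j.f x) :=
  (H.glm E).inc_zero H.cp (H.comm_c E) H.pp (H.comm_p E) H.d_o H.sg_o H.gr_o H.e_o (ptS Γ).co j
    _ x

theorem inc_succ (x : M.V) (k : ℕ) :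
    ((H.inc E j hj).f x : ∀ k, W.V ⊗[ℂ] (F.F ((ptS Γ).P k)).M.V) (k + 1) = 0 :=
  (H.glm E).inc_succ H.cp (H.comm_c E) H.pp (H.comm_p E) H.d_o H.sg_o H.gr_o H.e_o (ptS Γ).co j
    _ x k

theorem piTw_inc (x : M.V) : (H.piTw E).f ((H.inc E j hj).f x) = j.f x := by
  rw [piTw_apply, inc_zero]
  have h1 := eT_ret (q := (G.ep (F.F (BPt Γ)).M).f) (fun t z => H.ep_tT E t z) (o ⊗ₜ[ℂ] j.f x)
  refine h1.trans ?_
  rw [G.ep_tmul, H.eps_o, one_smul]

/-- **The inclusion is a quasi-isomorphism.** -/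
theorem qis_inc (hF : Qis (G.pi F)) (hq : Qis j.toHom) : Qis (H.inc E j hj).toHom := by
  refine Qis.of_comp_left (v := H.piTw E) (H.qis_piTw E hF) ?_
  have e : (H.piTw E).comp (H.inc E j hj).toHom = j.toHom :=
    homx (H.piTw_inc E j hj)
  rw [e]
  exact hq

/-- The inclusion is natural. -/
theorem inc_map {E : OEF F n} {j : LM.Hom M (E.E (BPt Γ)).lm}
    {hj : ∀ x, (F.t ((ptS Γ).co.fc 0 0)).f (j.f x) = (F.t ((ptS Γ).co.fc 0 1)).f (j.f x)}
    {M' : LM n} {j' : LM.Hom M' (E'.E (BPt Γ)).lm}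
    {hj' : ∀ x, (F'.t ((ptS Γ).co.fc 0 0)).f (j'.f x) = (F'.t ((ptS Γ).co.fc 0 1)).f (j'.f x)}
    (a : EHom E E') (u : LM.Hom M M') (h : ∀ x, a.c.f (BPt Γ) (j.f x) = j'.f (u.f x)) (x : M.V) :
    (H.map a).f ((H.inc E j hj).f x) = (H.inc E' j' hj').f (u.f x) :=
  (H.mor E a).inc H.cp (H.comm_c E) (H.comm_c E') H.pp (H.comm_p E) (H.comm_p E') H.d_o H.sg_o
    H.gr_o H.e_o (ptS Γ).co j j' _ _ u h x

end Inc

/-- A natural transformation to the twisted functor, compatible with the operators, gives a map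
to `XiTw`. -/
def ofNat (u : GF.Nat' (G.wk F') (H.glm E).tw)
    (hu : ∀ X t (z : W.V ⊗[ℂ] (F'.F X).M.V), (u.app X).f ((G.e t).rTensor (F'.F X).M.V z) =
      (G.e t).rTensor (F.F X).M.V ((u.app X).f z)) : LM.Hom (G.Xi F') (H.XiTw E) where
  toHom := (u.cs (ptS Γ).co).tot
  e t v := by
    funext k
    have h1 := Mor.tot_apply (u.cs (ptS Γ).co) ((G.Xi F').e t v) k
    have h2 := Mor.tot_apply (u.cs (ptS Γ).co) v k
    refine h1.trans ?_
    refine (congrArg (u.app ((ptS Γ).P k)).f (G.Xi_e_apply F' t v k)).trans ?_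
    refine (LinearMap.map_smul _ _ _).trans ?_
    refine (congrArg (fun y => (-1 : ℂ) ^ k • y) (hu ((ptS Γ).P k) t (v k))).trans ?_
    exact congrArg (fun y => (-1 : ℂ) ^ k • (G.e t).rTensor (F.F ((ptS Γ).P k)).M.V y) h2.symm

end GY

end

end Vale.Agent.P286.H549
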