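import Vale.Agent.P286.H549.OmPt
import Vale.Agent.P286.H549.WkC
import Vale.Agent.P286.H549.XiW
import Vale.Agent.P286.H166.Wk2
import Vale.Agent.P286.H374.GauH
import Vale.Agent.P286.H459.ThG

/-!
# The twisted version of `Xi` for the Weil algebra

The properties `GY` for the gauge functor of `Wk I n`, and the inclusion `N → XiTw (Ω ⊗ N)`.
-/

namespace Vale.Agent.P286.H549

open CategoryTheory TensorProduct H847 H847.GD H847.SGD H64 H761 H697 H867 H459 H710 H374
  Vale.Agent.P286.Gen Vale.Agent.P286.H295 Vale.Agent.P286.St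

noncomputable section

set_option linter.unusedSectionVars false

variable {N : ℕ} {Γ : Gps N} {I : Type} [Fintype I] [DecidableEq I] {n : ℕ}

/-- The gauge functor is given by the gauge transition maps. -/
structure IsG (G : GauX Γ (WK I n) n) (R : H987.Rpn Γ I) : Prop where
  map : ∀ (F : OmF (BGT Γ)) {X Z : Gen.BGObj Γ} (φ : X ⟶ Z) (z : Wk I n ⊗[ℂ] (fib F X).M.V),
    (G.map F φ).f z = (Gau.gm1 n R φ (fib F X) (fib F Z) (fibt F φ)).f z
  e : G.e = Wk.e I n
  eps : ∀ w, G.eps w = Wk.eps I n w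

/-- **The properties `GY` for the Weil algebra.** -/
theorem IsG.gy {G : GauX Γ (WK I n) n} {R : H987.Rpn Γ I} (h : IsG G R) :
    GY G (yop I n n) (xop I n) (1 : Wk I n) where
  map_y F X Z φ t z := by
    refine (h.map F φ _).trans (Eq.trans ?_ (congrArg _ (h.map F φ z).symm))
    exact Gau.G_inv (Q := Gau.wq I n) (M := fib F X) (M' := fib F Z) (t := (fibt F φ).f)
      (R.mul_inv _) (Gau.invt_yp t) z
  map_c F X Z φ t z := by
    refine (h.map F φ _).trans (Eq.trans ?_ (congrArg _ (h.map F φ z).symm))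
    exact Gau.G_xi (Q := Gau.wq I n) (M := fib F X) (M' := fib F Z) (t := (fibt F φ).f) t z
  map_o F X Z φ x := (h.map F φ _).trans (Gau.gm1_one_tmul R φ _ _ _ x)
  cp := by rw [h.e]; exact copP_wk
  pp := by rw [h.e]; exact pop_wk
  d_o := d_one_wk
  sg_o := sg_one_wk
  gr_o := one_gr_wk
  e_o t := by rw [h.e]; exact e_one_wk t
  eps_o := (h.eps _).trans (map_one (Wk.eps I n))
  eps_y t w := by
    refine (h.eps _).trans ?_
    change Wk.eps I n (yel I n t * (w : Wk I n)) = 0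
    rw [map_mul, eps_yel, zero_mul]
  eps_c t w := by
    refine (h.eps _).trans ?_
    change Wk.eps I n (Wk.xi I n t * (w : Wk I n)) = 0
    rw [map_mul, Wk.eps_xi, zero_mul]

/-! ### Constant families -/

variable [hs : Algebra.Smooth ℂ (Of Γ)] {W : SGD} {G : GauX Γ W n} {Y : LM.Yop n W}
  {c : Fin n → W.V →ₗ[ℂ] W.V} {o : W.V} (H : GY G Y c o)

omit hs in
/-- A map of modules, as a cochain of degree zero. -/
def hcoch {M M' : LM n} (u : LM.Hom M M') : LM.Coch M M' 0 where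
  f := u.f
  deg m x hx := by
    rw [add_zero]
    exact u.deg m x hx
  e i x := by
    rw [Int.negOnePow_zero, Units.val_one, one_smul]
    exact u.e i x

omit hs in
/-- A map of modules gives a map of constant families. -/
def cstH {M M' : LM n} (u : LM.Hom M M') : EHom (cstE (strB Γ) M) (cstE (strB Γ) M') where
  c := cstL (strB Γ) (hcoch u)
  comm X x := by
    change Om ℂ ((BGT Γ).R X) ⊗[ℂ] M.V at x
    change LM.smap (OmS ((BGT Γ).R X)) 0 u.f (td (OmS ((BGT Γ).R X)) M.toGD x) =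
      td (OmS ((BGT Γ).R X)) M'.toGD (LM.smap (OmS ((BGT Γ).R X)) 0 u.f x)
    induction x using TensorProduct.induction_on with
    | zero => simp
    | tmul w x =>
      rw [td_tmul, map_add, LM.smap_tmul, LM.smap_tmul, LM.smap_tmul, td_tmul, H64.sgp_zero,
        H64.sgp_zero, H64.sgp_zero, u.comm]
    | add a b ha hb => rw [map_add, map_add, ha, hb, map_add, map_add]
  e X i x := by
    have h := cstL_e (strB Γ) (hcoch u) X i x
    rw [Int.negOnePow_zero, Units.val_one, one_smul] at h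
    exact h

omit hs in
theorem cstH_tmul {M M' : LM n} (u : LM.Hom M M') (X : Gen.BGObj Γ) (w : Om ℂ X.A.R) (x : M.V) :
    (cstH (Γ := Γ) u).c.f X (w ⊗ₜ[ℂ] x) = w ⊗ₜ[ℂ] u.f x := by
  change LM.smap (OmS X.A.R) 0 u.f (w ⊗ₜ[ℂ] x) = _
  rw [LM.smap_tmul, H64.sgp_zero]

/-- **The inclusion `N → XiTw (Ω ⊗ N)`.** -/
def incC (M : LM n) : LM.Hom M (H.XiTw (cstE (strB Γ) M)) :=
  H.inc (cstE (strB Γ) M) (jC ((BGT Γ).R (BPt Γ)) M) fun x =>
    (congrArg (fun w => w ⊗ₜ[ℂ] x) (map_one (Om.pb ((BGT Γ).f ((ptS Γ).co.fc 0 0))))).trans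
      (congrArg (fun w => w ⊗ₜ[ℂ] x) (map_one (Om.pb ((BGT Γ).f ((ptS Γ).co.fc 0 1))))).symm

omit hs in
theorem pt_const (a : (BGT Γ).R (BPt Γ)) : ∃ c : ℂ, algebraMap ℂ ((BGT Γ).R (BPt Γ)) c = a :=
  ⟨a, rfl⟩

omit hs in
/-- The augmentation of the point. -/
def augP (Γ : Gps N) : (BGT Γ).R (BPt Γ) →ₐ[ℂ] ℂ := AlgHom.id ℂ ℂ

theorem piTw_incC (M : LM n) (x : M.V) :
    (H.piTw (cstE (strB Γ) M)).f ((incC H M).f x) = (1 : Om ℂ ((BGT Γ).R (BPt Γ))) ⊗ₜ[ℂ] x :=
  H.piTw_inc _ _ _ x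

/-- **The inclusion is a quasi-isomorphism.** -/
theorem qis_incC (M : LM n) (h : Qis (G.pi (cst (strB Γ) M.toGD))) : Qis (incC H M).toHom :=
  H.qis_inc _ _ _ h (qis_jC pt_const (augP Γ) M)

/-- The inclusion is natural. -/
theorem incC_map {M M' : LM n} (u : LM.Hom M M') (x : M.V) :
    (H.map (cstH u)).f ((incC H M).f x) = (incC H M').f (u.f x) :=
  H.inc_map (cstH u) u (fun x => cstH_tmul u (BPt Γ) 1 x) x

theorem cst_map_id (M : LM n) (v : (H.XiTw (cstE (strB Γ) M)).V) :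
    (H.map (cstH (LM.Hom.id M))).f v = v :=
  H.map_id _ (fun X x => LM.smap_id (OmS ((BGT Γ).R X)) x) v

theorem cst_map_comp {M M' M'' : LM n} (u : LM.Hom M M') (u' : LM.Hom M' M'')
    (v : (H.XiTw (cstE (strB Γ) M)).V) :
    (H.map (cstH (u'.comp u))).f v = (H.map (cstH u')).f ((H.map (cstH u)).f v) :=
  H.map_comp (cstH u) (cstH u') (cstH (u'.comp u))
    (fun X x => (LM.smap_comp (OmS ((BGT Γ).R X)) 0 0 u.f u'.f x).symm) v

end

end Vale.Agent.P286.H549
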