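import Vale.Agent.P286.H549.NFun
import Vale.Agent.P286.H606.KunC
import Vale.Agent.P286.H710.E1R

/-!
# The functor `N ↦ XiTw (Ω ⊗ N)` for the Weil algebra
-/

namespace Vale.Agent.P286.H549

open CategoryTheory H847 H847.GD H64 H761 H867 H459 H710
  Vale.Agent.P286.H274 Vale.Agent.P286.H353 Vale.Agent.P286.Gen
  Vale.Agent.P286.H295 Vale.Agent.P286.St

noncomputable section

variable {N : ℕ} {Γ : Gps N} [hs : Algebra.Smooth ℂ (Of Γ)] {I : Type} [Fintype I] [DecidableEq I]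

/-- The functor `N ↦ XiTw (Ω ⊗ N)`. -/
abbrev LTw (n : ℕ) (R : H987.Rpn Γ I) : Z0 (LMod n) ⥤ Z0 (LMod n) := NF (gyR n R)

variable {n : ℕ} {R : H987.Rpn Γ I} (hE0 : Qis (R.evU n))

include hE0

/-- The map `π` for the constant families. -/
theorem qis_pi_cst (M : GD) : Qis ((gauX n R).pi (cst (strB Γ) M)) :=
  qis_pi_R R n hE0 (H606.KUN_cst (strB Γ) M)

/-- The map `ε ⊗ 1` for the constant families. -/
theorem qis_piTw_cst (M : LM n) : Qis ((gyR n R).piTw (cstE (strB Γ) M)) :=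
  (gyR n R).qis_piTw _ (qis_pi_cst hE0 M.toGD)

/-- **The identity is quasi-isomorphic to the functor `N ↦ XiTw (Ω ⊗ N)`.** -/
theorem natW_LTw : NatW (LMod.W n) (𝟭 (Z0 (LMod n))) (LTw n R) :=
  natW_NF (gyR n R) fun M => qis_pi_cst hE0 M.toGD

theorem zig_LTw : Zig (LMod.W n) (𝟭 (Z0 (LMod n))) (LTw n R) := (natW_LTw hE0).zig

end

end Vale.Agent.P286.H549
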