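import Vale.Agent.P286.H549.GyI
import Vale.Agent.P286.H274.LMod
import Vale.Agent.P286.H353.Glue
import Vale.Agent.P286.H761.Gx

/-!
# The functor `N ↦ XiTw (Ω ⊗ N)`
-/

namespace Vale.Agent.P286.H549

open CategoryTheory TensorProduct H847 H847.GD H847.SGD H64 H761 H697 H867 H459 H710
  Vale.Agent.P286.H274 Vale.Agent.P286.H353
  Vale.Agent.P286.Gen Vale.Agent.P286.H295 Vale.Agent.P286.St

noncomputable section

variable {N : ℕ} {Γ : Gps N} {n : ℕ}

/-- The properties `GY` for the gauge functor of the Weil algebra. -/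
theorem gyR {I : Type} [Fintype I] [DecidableEq I] (n : ℕ) (R : H987.Rpn Γ I) :
    GY (gauX n R) (yop I n n) (xop I n) (1 : Wk I n) :=
  IsG.gy (R := R) ⟨fun _ _ _ _ _ => rfl, rfl, fun _ => rfl⟩

variable [hs : Algebra.Smooth ℂ (Of Γ)] {W : SGD} {G : GauX Γ W n} {Y : LM.Yop n W}
  {c : Fin n → W.V →ₗ[ℂ] W.V} {o : W.V} (H : GY G Y c o)

/-- The functor `N ↦ XiTw (Ω ⊗ N)`. -/
def NF : Z0 (LMod n) ⥤ Z0 (LMod n) where
  obj P := LMod.lo (H.XiTw (cstE (strB Γ) (LMod.ol P)))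
  map a := LMod.ofH (H.map (cstH (Γ := Γ) (LMod.toH a)))
  map_id P := LMod.hom_ext fun x => cst_map_id H (LMod.ol P) x
  map_comp a b := LMod.hom_ext fun x => cst_map_comp H (LMod.toH a) (LMod.toH b) x

theorem NF_obj (P : Z0 (LMod n)) :
    LMod.ol ((NF H).obj P) = H.XiTw (cstE (strB Γ) (LMod.ol P)) := rfl

theorem NF_map {P Q : Z0 (LMod n)} (a : P ⟶ Q) :
    LMod.toH ((NF H).map a) = H.map (cstH (Γ := Γ) (LMod.toH a)) := rfl

/-- **The identity is quasi-isomorphic to the functor `N ↦ XiTw (Ω ⊗ N)`.** -/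
theorem natW_NF (hpi : ∀ M : LM n, Qis (G.pi (cst (strB Γ) M.toGD))) :
    NatW (LMod.W n) (𝟭 (Z0 (LMod n))) (NF H) :=
  LMod.natW' (F := 𝟭 (Z0 (LMod n))) (G := NF H) (fun P => incC H (LMod.ol P))
    (fun a x => (incC_map H (LMod.toH a) x).symm) (fun P => qis_incC H (LMod.ol P) (hpi _))

theorem zig_NF (hpi : ∀ M : LM n, Qis (G.pi (cst (strB Γ) M.toGD))) :
    Zig (LMod.W n) (𝟭 (Z0 (LMod n))) (NF H) := (natW_NF H hpi).zig

end

end Vale.Agent.P286.H549
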