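import Vale.Agent.P286.H549.Tw
import Vale.Agent.P286.H64.LM

/-!
# The exponential isomorphism onto the twisted tensor product
-/

namespace Vale.Agent.P286.H549

open TensorProduct H847 H847.GD H847.SGD H64

noncomputable section

variable {n : ℕ}

theorem ee (N : LM n) : EE N.toGD N.e := ⟨N.e_e, N.d_e⟩

/-- Left multiplications by odd elements `c i` with `d c i = y i`. -/
structure Cop {W : SGD} (Y : LM.Yop n W) (c : Fin n → W.V →ₗ[ℂ] W.V) : Prop where
  s_c : ∀ i w, W.sg (c i w) = - c i (W.sg w)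
  d_c : ∀ i w, W.d (c i w) + c i (W.d w) = Y.y i w
  c_c : ∀ i j w, c i (c j w) = - c j (c i w)
  y_c : ∀ i j w, Y.y i (c j w) = c j (Y.y i w)
  c_gr : ∀ (i : Fin n) (m : ℤ) (w : W.V), w ∈ W.gr m → c i w ∈ W.gr (m + (4 * (i : ℤ) + 3))

section

variable {W : SGD} {Y : LM.Yop n W} {c : Fin n → W.V →ₗ[ℂ] W.V}

theorem Cop.cy (h : Cop Y c) : CY W c Y.y :=
  ⟨h.s_c, fun i w => (Y.y_sg i w).symm, h.d_c, h.c_c, h.y_c⟩

theorem yE_eq (N : LM n) : LM.yE Y N = tT W Y.y N.e := rfl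

theorem Cop.tw (h : Cop Y c) (N : LM n) :
    TW (td W N.toGD) (tT W c N.e) (LM.yE Y N) := h.cy.tw (ee N)

theorem Cop.T_mem (h : Cop Y c) (N : LM n) (i : Fin n) (m : ℤ) (z : W.V ⊗[ℂ] N.V)
    (hz : z ∈ tgr W.toGD N.toGD m) : tT W c N.e i z ∈ tgr W.toGD N.toGD m := by
  have := tT_mem (W := W) (N := N.toGD) (c := c) (e := N.e) (i := i)
    (p := 4 * (i : ℤ) + 3) (q := -(4 * (i : ℤ) + 3)) (fun m w hw => h.c_gr i m w hw)
    (fun m x hx => N.e_gr i m x hx) m z hz
  rwa [add_neg_cancel, add_zero] at this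

/-- The exponential `W ⊗ N → (W ⊗ N)_tw`. -/
def exH (h : Cop Y c) (N : LM n) : GD.Hom (tens W N.toGD) (LM.tw Y N) where
  f := eT (tT W c N.e)
  comm z := by
    have := (h.tw N).d_eT z
    change eT (tT W c N.e) (td W N.toGD z) = LM.twd Y N (eT (tT W c N.e) z)
    rw [LM.twd_apply, this]
  deg m _ hz := eT_mem (fun i => h.T_mem N i m) hz

/-- The inverse. -/
def exI (h : Cop Y c) (N : LM n) : GD.Hom (LM.tw Y N) (tens W N.toGD) where
  f := eN (tT W c N.e)
  comm z := by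
    have := (h.tw N).d_eN z
    change eN (tT W c N.e) (LM.twd Y N z) = td W N.toGD (eN (tT W c N.e) z)
    rw [this, LM.twd_apply]
  deg m _ hz := eN_mem (fun i => h.T_mem N i m) hz

@[simp] theorem exH_f (h : Cop Y c) (N : LM n) : (exH h N).f = eT (tT W c N.e) := rfl

@[simp] theorem exI_f (h : Cop Y c) (N : LM n) : (exI h N).f = eN (tT W c N.e) := rfl

theorem exH_exI (h : Cop Y c) (N : LM n) (z : W.V ⊗[ℂ] N.V) :
    (exH h N).f ((exI h N).f z) = z := (h.tw N).eT_eN z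

theorem exI_exH (h : Cop Y c) (N : LM n) (z : W.V ⊗[ℂ] N.V) :
    (exI h N).f ((exH h N).f z) = z := (h.tw N).eN_eT z

theorem qis_exH (h : Cop Y c) (N : LM n) : Qis (exH h N) :=
  qis_of_inv _ (exI h N) (exH_exI h N) (exI_exH h N)

theorem qis_exI (h : Cop Y c) (N : LM n) : Qis (exI h N) :=
  qis_of_inv _ (exH h N) (exI_exH h N) (exH_exI h N)

/-- The exponential is natural in `N`. -/
theorem exH_nat (h : Cop Y c) {N N' : LM n} (u : LM.Hom N N') (z : W.V ⊗[ℂ] N.V) :
    u.f.lTensor W.V ((exH h N).f z) = (exH h N').f (u.f.lTensor W.V z) :=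
  eT_tT_map (W := W) (N := N.toGD) (N' := N'.toGD) (e := N.e) (e' := N'.e) u.f u.e z

/-- The exponential is natural for cochains of degree `p`: `s^p ⊗ u`. -/
theorem exH_coch (h : Cop Y c) {N N' : LM n} {p : ℤ} (u : LM.Coch N N' p) (s : W.V →ₗ[ℂ] W.V)
    (hsc : ∀ i w, s (c i w) = ((p.negOnePow : ℤ) : ℂ) • c i (s w))
    (hss : ∀ w, s (W.sg w) = W.sg (s w)) (z : W.V ⊗[ℂ] N.V) :
    TensorProduct.map s u.f ((exH h N).f z) = (exH h N').f (TensorProduct.map s u.f z) := by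
  have h1 : ((p.negOnePow : ℤ) : ℂ) * ((p.negOnePow : ℤ) : ℂ) = 1 := by
    rcases Int.even_or_odd p with hp | hp
    · rw [Int.negOnePow_even p hp]; norm_num
    · rw [Int.negOnePow_odd p hp]; norm_num
  refine eT_map (u := TensorProduct.map s u.f) (fun i z => ?_) z
  induction z using TensorProduct.induction_on with
  | zero => simp
  | tmul a x =>
    rw [tT_tmul, map_tmul, map_tmul, tT_tmul, hsc, hss, u.e, ← Int.cast_smul_eq_zsmul ℂ,
      smul_tmul_smul, h1, one_smul]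
  | add a b ha hb => simp only [map_add, ha, hb]

end

/-! ### Derivatives -/

/-- Left multiplications `c i` and derivatives `p i`. -/
structure CopP {W : SGD} (Y : LM.Yop n W) (c p : Fin n → W.V →ₗ[ℂ] W.V) : Prop extends
    Cop Y c where
  p_c : ∀ i j w, p i (c j w) + c j (p i w) = if i = j then w else 0
  s_p : ∀ i w, W.sg (p i w) = - p i (W.sg w)

section

variable {W : SGD} {Y : LM.Yop n W} {c p : Fin n → W.V →ₗ[ℂ] W.V}

/-- All relations on `W ⊗ N`. -/
theorem CopP.rel (h : CopP Y c p) (N : LM n) : XE (td W N.toGD) (fun i => (c i).rTensor N.V)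
    (fun i => mE W N.e i) (fun i => (p i).rTensor N.V) (fun i => (Y.y i).rTensor N.V) where
  toXY := h.cy.xy (ee N)
  px i j z := by
    induction z using TensorProduct.induction_on with
    | zero => simp
    | tmul a x =>
      simp only [LinearMap.rTensor_tmul]
      rw [← add_tmul, h.p_c]
      split_ifs
      · rfl
      · rw [zero_tmul]
    | add a b ha hb =>
      simp only [map_add]
      rw [show ∀ a b c d : W.V ⊗[ℂ] N.V, a + b + (c + d) = (a + c) + (b + d) from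
        fun a b c d => by abel, ha, hb]
      split_ifs
      · rfl
      · rw [add_zero]
  pE i j z := by
    induction z using TensorProduct.induction_on with
    | zero => simp
    | tmul a x => simp only [LinearMap.rTensor_tmul, mE_tmul, h.s_p, neg_tmul, neg_neg]
    | add a b ha hb => simp only [map_add, ha, hb]; abel

/-- The derivatives of the exponential. -/
theorem CopP.p_exH (h : CopP Y c p) (N : LM n) (i : Fin n) (z : W.V ⊗[ℂ] N.V) :
    (p i).rTensor N.V ((exH h.toCop N).f z) = (exH h.toCop N).f ((p i).rTensor N.V z) +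
      (exH h.toCop N).f ((LM.tensL W N).e i z) := by
  have h1 := (h.rel N).p_eT i z
  rwa [show xe (fun i => (c i).rTensor N.V) (fun i => mE W N.e i) = tT W c N.e from
    funext fun i => LinearMap.ext fun z => xe_rTensor i z] at h1

/-- The derivatives of the exponential of `o ⊗ x`. -/
theorem CopP.p_exH_one (h : CopP Y c p) (N : LM n) (i : Fin n) {o : W.V} (ho : p i o = 0)
    (hs : W.sg o = o) (x : N.V) :
    (p i).rTensor N.V ((exH h.toCop N).f (o ⊗ₜ[ℂ] x)) =
      (exH h.toCop N).f (o ⊗ₜ[ℂ] N.e i x) := by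
  rw [h.p_exH, LinearMap.rTensor_tmul, ho, zero_tmul, map_zero, zero_add]
  exact congrArg _ (by rw [LM.tensL_e_tmul, hs])

end

/-! ### The unit -/

section

variable {W : SGD} {Y : LM.Yop n W} {c : Fin n → W.V →ₗ[ℂ] W.V}

/-- The map `x ↦ exp (o ⊗ x)`, for a closed even element `o` of degree zero. -/
def etaH (h : Cop Y c) (N : LM n) (o : W.V) (hd : W.d o = 0) (hs : W.sg o = o)
    (hg : o ∈ W.gr 0) : GD.Hom N.toGD (LM.tw Y N) :=
  (exH h N).comp
    { f := TensorProduct.mk ℂ W.V N.V o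
      comm := fun x => by
        change o ⊗ₜ[ℂ] N.d x = td W N.toGD (o ⊗ₜ[ℂ] x)
        rw [td_tmul, hd, hs, zero_tmul, zero_add]
      deg := fun m x hx => tmul_mem (by ring) hg hx }

@[simp] theorem etaH_f (h : Cop Y c) (N : LM n) (o : W.V) (hd : W.d o = 0) (hs : W.sg o = o)
    (hg : o ∈ W.gr 0) (x : N.V) :
    (etaH h N o hd hs hg).f x = (exH h N).f (o ⊗ₜ[ℂ] x) := rfl

/-- A linear form on `W` which kills the `c i w` and the `y i w`, and the image of `d`, gives a
retraction of the exponential. -/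
def epsH (Y : LM.Yop n W) (N : LM n) (ε : W.V →ₗ[ℂ] ℂ) (hd : ∀ w, ε (W.d w) = 0)
    (hs : ∀ w, ε (W.sg w) = ε w) (hy : ∀ i w, ε (Y.y i w) = 0)
    (hg : ∀ m, m ≠ 0 → ∀ w ∈ W.gr m, ε w = 0) : GD.Hom (LM.tw Y N) N.toGD where
  f := TensorProduct.lid ℂ N.V ∘ₗ ε.rTensor N.V
  comm z := by
    change W.V ⊗[ℂ] N.V at z
    change TensorProduct.lid ℂ N.V (ε.rTensor N.V (LM.twd Y N z)) =
      N.d (TensorProduct.lid ℂ N.V (ε.rTensor N.V z))
    induction z using TensorProduct.induction_on with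
    | zero => simp
    | tmul a x =>
      rw [LM.twd_tmul, map_sub, map_add, map_sum]
      simp only [LinearMap.rTensor_tmul, hd, hs, hy, zero_tmul, Finset.sum_const_zero, sub_zero,
        zero_add, TensorProduct.lid_tmul, map_smul]
    | add a b ha hb => simp only [map_add, ha, hb]
  deg m z hz := by
    have : tgr W.toGD N.toGD m ≤ (N.gr m).comap
        ((TensorProduct.lid ℂ N.V).toLinearMap ∘ₗ ε.rTensor N.V) := by
      refine tgr_le fun i j a x hij ha hx => ?_
      change TensorProduct.lid ℂ N.V (ε.rTensor N.V (a ⊗ₜ[ℂ] x)) ∈ N.gr m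
      rw [LinearMap.rTensor_tmul, TensorProduct.lid_tmul]
      by_cases hi : i = 0
      · subst hi
        rw [zero_add] at hij
        subst hij
        exact Submodule.smul_mem _ _ hx
      · rw [hg i hi a ha, zero_smul]
        exact zero_mem _
    exact this hz

end

/-! ### Odd elements of `W ⊗ F` -/

/-- Operators on `W ⊗ F` which are left multiplications by odd elements `c i` with
`d c i = y i ⊗ 1`. -/
structure Cop3 {W : SGD} (Y : LM.Yop n W) (F : SGD)
    (C : Fin n → W.V ⊗[ℂ] F.V →ₗ[ℂ] W.V ⊗[ℂ] F.V) : Prop where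
  s_c : ∀ i z, TensorProduct.map W.sg F.sg (C i z) = - C i (TensorProduct.map W.sg F.sg z)
  d_c : ∀ i z, td W F.toGD (C i z) + C i (td W F.toGD z) = (Y.y i).rTensor F.V z
  c_c : ∀ i j z, C i (C j z) = - C j (C i z)
  y_c : ∀ i j z, (Y.y i).rTensor F.V (C j z) = C j ((Y.y i).rTensor F.V z)
  c_gr : ∀ (i : Fin n) (m : ℤ) (z : W.V ⊗[ℂ] F.V), z ∈ tgr W.toGD F.toGD m →
    C i z ∈ tgr W.toGD F.toGD (m + (4 * (i : ℤ) + 3))

section

variable {W : SGD} {Y : LM.Yop n W} {F : SGD} {C : Fin n → W.V ⊗[ℂ] F.V →ₗ[ℂ] W.V ⊗[ℂ] F.V}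

theorem Cop3.cy (h : Cop3 Y F C) : CY (stens W F) C (fun i => (Y.y i).rTensor F.V) where
  sc := h.s_c
  sy i z := by
    change W.V ⊗[ℂ] F.V at z
    change TensorProduct.map W.sg F.sg ((Y.y i).rTensor F.V z) =
      (Y.y i).rTensor F.V (TensorProduct.map W.sg F.sg z)
    induction z using TensorProduct.induction_on with
    | zero => simp
    | tmul a x => simp only [LinearMap.rTensor_tmul, map_tmul, Y.y_sg]
    | add a b ha hb => simp only [map_add, ha, hb]
  dc := h.d_c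
  cc := h.c_c
  yc := h.y_c

theorem asc_mem {N : GD} {m : ℤ} {z : (W.V ⊗[ℂ] F.V) ⊗[ℂ] N.V}
    (hz : z ∈ tgr (stens W F).toGD N m) : asc W F N z ∈ tgr W.toGD (tens F N) m := by
  have : tgr (stens W F).toGD N m ≤ (tgr W.toGD (tens F N) m).comap
      (asc W F N).toLinearMap := by
    refine tgr_le fun i j b x hij hb hx => ?_
    have h2 : tgr W.toGD F.toGD i ≤ (tgr W.toGD (tens F N) m).comap
        ((asc W F N).toLinearMap ∘ₗ (TensorProduct.mk ℂ (W.V ⊗[ℂ] F.V) N.V).flip x) := by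
      refine tgr_le fun k l w a hkl hw ha => ?_
      change w ⊗ₜ[ℂ] (a ⊗ₜ[ℂ] x) ∈ tgr W.toGD (tens F N) m
      exact tmul_mem (F := tens F N) (by rw [← hij, ← hkl]; ring) hw (tmul_mem rfl ha hx)
    exact h2 hb
  exact this hz

theorem asc_symm_mem {N : GD} {m : ℤ} {z : W.V ⊗[ℂ] (F.V ⊗[ℂ] N.V)}
    (hz : z ∈ tgr W.toGD (tens F N) m) : (asc W F N).symm z ∈ tgr (stens W F).toGD N m := by
  have : tgr W.toGD (tens F N) m ≤ (tgr (stens W F).toGD N m).comap
      (asc W F N).symm.toLinearMap := by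
    refine tgr_le fun i j w b hij hw hb => ?_
    have h2 : tgr F.toGD N j ≤ (tgr (stens W F).toGD N m).comap
        ((asc W F N).symm.toLinearMap ∘ₗ TensorProduct.mk ℂ W.V (F.V ⊗[ℂ] N.V) w) := by
      refine tgr_le fun k l a x hkl ha hx => ?_
      change (w ⊗ₜ[ℂ] a) ⊗ₜ[ℂ] x ∈ tgr (stens W F).toGD N m
      exact tmul_mem (E := (stens W F).toGD) (by rw [← hij, ← hkl]; ring) (tmul_mem rfl hw ha) hx
    exact h2 hb
  exact this hz

theorem Cop3.tw (h : Cop3 Y F C) (N : LM n) :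
    TW (td W (tens F N.toGD)) (t3 C N.e) (LM.yE Y (LM.tensL F N)) := TW.t3 h.cy (ee N)

theorem Cop3.T_mem (h : Cop3 Y F C) (N : LM n) (i : Fin n) (m : ℤ)
    (z : W.V ⊗[ℂ] (F.V ⊗[ℂ] N.V)) (hz : z ∈ tgr W.toGD (tens F N.toGD) m) :
    t3 C N.e i z ∈ tgr W.toGD (tens F N.toGD) m := by
  have h1 := tT_mem (W := stens W F) (N := N.toGD) (c := C) (e := N.e) (i := i)
    (p := 4 * (i : ℤ) + 3) (q := -(4 * (i : ℤ) + 3)) (fun m w hw => h.c_gr i m w hw)
    (fun m x hx => N.e_gr i m x hx) m _ (asc_symm_mem hz)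
  rw [add_neg_cancel, add_zero] at h1
  exact asc_mem h1

/-- The exponential `W ⊗ (F ⊗ N) → (W ⊗ (F ⊗ N))_tw`. -/
def exH3 (h : Cop3 Y F C) (N : LM n) :
    GD.Hom (tens W (tens F N.toGD)) (LM.tw Y (LM.tensL F N)) where
  f := eT (t3 C N.e)
  comm z := by
    have := (h.tw N).d_eT z
    change eT (t3 C N.e) (td W (tens F N.toGD) z) = LM.twd Y (LM.tensL F N) (eT (t3 C N.e) z)
    rw [LM.twd_apply, this]
  deg m _ hz := eT_mem (fun i => h.T_mem N i m) hz

/-- The inverse. -/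
def exI3 (h : Cop3 Y F C) (N : LM n) :
    GD.Hom (LM.tw Y (LM.tensL F N)) (tens W (tens F N.toGD)) where
  f := eN (t3 C N.e)
  comm z := by
    have := (h.tw N).d_eN z
    change eN (t3 C N.e) (LM.twd Y (LM.tensL F N) z) = td W (tens F N.toGD) (eN (t3 C N.e) z)
    rw [this, LM.twd_apply]
  deg m _ hz := eN_mem (fun i => h.T_mem N i m) hz

@[simp] theorem exH3_f (h : Cop3 Y F C) (N : LM n) : (exH3 h N).f = eT (t3 C N.e) := rfl

@[simp] theorem exI3_f (h : Cop3 Y F C) (N : LM n) : (exI3 h N).f = eN (t3 C N.e) := rfl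

theorem exH3_exI3 (h : Cop3 Y F C) (N : LM n) (z : W.V ⊗[ℂ] (F.V ⊗[ℂ] N.V)) :
    (exH3 h N).f ((exI3 h N).f z) = z := (h.tw N).eT_eN z

theorem exI3_exH3 (h : Cop3 Y F C) (N : LM n) (z : W.V ⊗[ℂ] (F.V ⊗[ℂ] N.V)) :
    (exI3 h N).f ((exH3 h N).f z) = z := (h.tw N).eN_eT z

theorem qis_exH3 (h : Cop3 Y F C) (N : LM n) : Qis (exH3 h N) :=
  qis_of_inv _ (exI3 h N) (exH3_exI3 h N) (exI3_exH3 h N)

theorem qis_exI3 (h : Cop3 Y F C) (N : LM n) : Qis (exI3 h N) :=
  qis_of_inv _ (exH3 h N) (exI3_exH3 h N) (exH3_exI3 h N)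

/-- The exponential is natural in `N`. -/
theorem exH3_nat (h : Cop3 Y F C) {N N' : LM n} (u : LM.Hom N N') (z : W.V ⊗[ℂ] (F.V ⊗[ℂ] N.V)) :
    (u.f.lTensor F.V).lTensor W.V ((exH3 h N).f z) =
      (exH3 h N').f ((u.f.lTensor F.V).lTensor W.V z) := by
  refine eT_map (u := (u.f.lTensor F.V).lTensor W.V) (fun i z => ?_) z
  induction z using ind3' with
  | zero => simp
  | tmul w a x =>
    rw [t3_tmul, LinearMap.lTensor_tmul, LinearMap.lTensor_tmul, t3_tmul, ← u.e]
    generalize C i (W.sg w ⊗ₜ[ℂ] F.sg a) = b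
    generalize N.e i x = x'
    induction b using TensorProduct.induction_on with
    | zero => simp
    | tmul w a => rfl
    | add b b' hb hb' => rw [add_tmul, add_tmul, map_add, map_add, map_add, hb, hb']
  | add a b ha hb => rw [map_add, map_add, ha, hb, map_add, map_add]

end

end

end Vale.Agent.P286.H549
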