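import Vale.Agent.P286.H761.Xi
import Vale.Agent.P286.H710.OmS
import Vale.Agent.P286.H549.TwLM

/-!
# Forms on a point

For an algebra `A` with `A = ℂ`, the forms are the constants, and `x ↦ 1 ⊗ x` is a
quasi-isomorphism `N → Ω_A ⊗ N`.
-/

namespace Vale.Agent.P286.H549

open TensorProduct H847 H847.GD H847.SGD H64 H761 H710 H44

noncomputable section

variable {A : Type} [CommRing A] [Algebra ℂ A] {n : ℕ}

/-- The value of the component of degree zero. -/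
def epsO (aug : A →ₐ[ℂ] ℂ) : Om ℂ A →ₗ[ℂ] ℂ where
  toFun w := aug (ExteriorAlgebra.algebraMapInv w)
  map_add' w w' := by rw [map_add, map_add]
  map_smul' c w := by
    rw [H44.cmul_eq, map_smul, smul_eq_mul, map_mul, AlgHom.commutes]
    rfl

theorem epsO_alg (aug : A →ₐ[ℂ] ℂ) (a : A) : epsO aug (algebraMap A (Om ℂ A) a) = aug a := by
  change aug (ExteriorAlgebra.algebraMapInv (algebraMap A (Om ℂ A) a)) = aug a
  rw [AlgHom.commutes]
  rfl

variable (hA : ∀ a : A, ∃ c : ℂ, algebraMap ℂ A c = a)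

include hA

/-- All forms are constants. -/
theorem om_const (w : Om ℂ A) : ∃ c : ℂ, algebraMap A (Om ℂ A) (algebraMap ℂ A c) = w := by
  induction w using Om.induction with
  | alg a =>
    obtain ⟨c, rfl⟩ := hA a
    exact ⟨c, rfl⟩
  | dd b =>
    obtain ⟨c, rfl⟩ := hA b
    exact ⟨0, by rw [map_zero, map_zero, H44.dd_const]⟩
  | mul x y hx hy =>
    obtain ⟨a, rfl⟩ := hx
    obtain ⟨b, rfl⟩ := hy
    exact ⟨a * b, by rw [map_mul, map_mul]⟩
  | add x y hx hy =>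
    obtain ⟨a, rfl⟩ := hx
    obtain ⟨b, rfl⟩ := hy
    exact ⟨a + b, by rw [map_add, map_add]⟩

theorem om_d (w : Om ℂ A) : Om.d w = 0 := by
  obtain ⟨c, rfl⟩ := om_const hA w
  rw [Om.d_algebraMap, H44.dd_const]

theorem om_sg (w : Om ℂ A) : Om.sg w = w := by
  obtain ⟨c, rfl⟩ := om_const hA w
  exact Om.sg.commutes _

theorem om_gr {p : ℕ} (hp : p ≠ 0) {w : Om ℂ A} (h : w ∈ Om.gr ℂ A p) : w = 0 := by
  obtain ⟨c, rfl⟩ := om_const hA w
  have h0 : algebraMap A (Om ℂ A) (algebraMap ℂ A c) ∈ Om.gr ℂ A 0 := Om.alg_mem _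
  have h1 := H697.Om.pr_of_mem h
  rw [← h1]
  exact H697.Om.pr_of_ne (Ne.symm hp) h0

/-- The projection to the coefficient. -/
def epsC (aug : A →ₐ[ℂ] ℂ) (N : GD) : GD.Hom (tens (OmS A) N) N :=
  epT (OmS A) (epsO aug) (fun w => by
      change epsO aug (Om.d w) = 0
      rw [om_d hA, map_zero])
    (fun w => by
      change epsO aug (Om.sg w) = epsO aug w
      rw [om_sg hA])
    (fun m hm w hw => by
      rcases hw with rfl | ⟨p, hp, hw⟩
      · exact map_zero _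
      · rw [om_gr hA (fun h => hm (by rw [hp, h]; rfl)) hw, map_zero])
    N

theorem epsC_tmul (aug : A →ₐ[ℂ] ℂ) (N : GD) (w : Om ℂ A) (x : N.V) :
    (epsC hA aug N).f (w ⊗ₜ[ℂ] x) = epsO aug w • x := rfl

omit hA in
/-- The map `x ↦ 1 ⊗ x`. -/
def jC (A : Type) [CommRing A] [Algebra ℂ A] (N : LM n) : LM.Hom N (LM.tensL (OmS A) N) where
  f := TensorProduct.mk ℂ (Om ℂ A) N.V 1
  comm x := by
    change (1 : Om ℂ A) ⊗ₜ[ℂ] N.d x = td (OmS A) N.toGD ((1 : Om ℂ A) ⊗ₜ[ℂ] x)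
    rw [td_tmul]
    change _ = Om.d (1 : Om ℂ A) ⊗ₜ[ℂ] x + Om.sg (1 : Om ℂ A) ⊗ₜ[ℂ] N.d x
    have h1 : Om.d (1 : Om ℂ A) = 0 := by
      have := H44.dd_const (A := A) 1
      rw [map_one] at this
      have h2 := Om.d_algebraMap (k := ℂ) (1 : A)
      rw [map_one] at h2
      rw [h2, this]
    rw [h1, map_one, zero_tmul, zero_add]
  deg m x hx := by
    refine tmul_mem (E := OmGD A) (i := 0) (j := m) (by ring) ?_ hx
    refine Or.inr ⟨0, rfl, ?_⟩
    have := Om.alg_mem (k := ℂ) (1 : A)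
    rwa [map_one] at this
  e i x := by
    change (1 : Om ℂ A) ⊗ₜ[ℂ] N.e i x = Om.sg (1 : Om ℂ A) ⊗ₜ[ℂ] N.e i x
    rw [map_one]

omit hA in
theorem jC_f (N : LM n) (x : N.V) : (jC A N).f x = (1 : Om ℂ A) ⊗ₜ[ℂ] x := rfl

theorem epsC_jC (aug : A →ₐ[ℂ] ℂ) (N : LM n) (x : N.V) :
    (epsC hA aug N.toGD).f ((jC A N).f x) = x := by
  rw [jC_f, epsC_tmul]
  have := epsO_alg aug (1 : A)
  rw [map_one (algebraMap A (Om ℂ A)), map_one aug] at this
  rw [this, one_smul]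

theorem jC_epsC (aug : A →ₐ[ℂ] ℂ) (N : LM n) (z : Om ℂ A ⊗[ℂ] N.V) :
    (jC A N).f ((epsC hA aug N.toGD).f z) = z := by
  induction z using TensorProduct.induction_on with
  | zero => rw [map_zero, map_zero]
  | tmul w x =>
    rw [epsC_tmul, jC_f]
    obtain ⟨c, rfl⟩ := om_const hA w
    rw [epsO_alg, AlgHom.commutes, tmul_smul, smul_tmul']
    congr 1
    rw [H44.cmul_eq, Algebra.smul_def, mul_one]
    rfl
  | add a b ha hb => rw [map_add, map_add, ha, hb]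

/-- **The map `x ↦ 1 ⊗ x` is a quasi-isomorphism over a point.** -/
theorem qis_jC (aug : A →ₐ[ℂ] ℂ) (N : LM n) : Qis (jC A N).toHom :=
  qis_of_inv _ (epsC hA aug N.toGD) (jC_epsC hA aug N) (epsC_jC hA aug N)

end

end Vale.Agent.P286.H549
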