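import Vale.Agent.P286.H867.Prd
import Vale.Agent.P286.H549.OmPt

/-!
# The de Rham complex over a point

For an algebra `A` with `A = ℂ` the map `x ↦ 1 ⊗ x` from a complex of `D`-modules to its de Rham
complex is a quasi-isomorphism.
-/

namespace Vale.Agent.P286.H549

open TensorProduct H847 H847.GD H710 H697 H867

noncomputable section

variable {A : Type} [CommRing A] [Algebra ℂ A]

/-- The map `x ↦ 1 ⊗ x` as a linear map. -/
def oneT (K : DGM A) : K.M.V →ₗ[ℂ] DR ℂ A K.M.V where
  toFun x := (1 : Om ℂ A) ⊗ₜ[A] x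
  map_add' x y := tmul_add _ x y
  map_smul' c x := by
    rw [RingHom.id_apply, csmul_eq, smul_tmul', smul_eq_mul, mul_one,
      IsScalarTower.algebraMap_apply ℂ A (Om ℂ A), Algebra.algebraMap_eq_smul_one, smul_tmul,
      algebraMap_smul]

theorem oneT_apply (K : DGM A) (x : K.M.V) : oneT K x = (1 : Om ℂ A) ⊗ₜ[A] x := rfl

theorem one_mem : (1 : Om ℂ A) ∈ Om.gr ℂ A 0 := by
  have := Om.alg_mem (k := ℂ) (1 : A)
  rwa [map_one] at this

theorem d_one : Om.d (1 : Om ℂ A) = 0 := by
  have h := H44.dd_const (A := A) 1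
  rw [map_one] at h
  have h2 := Om.d_algebraMap (k := ℂ) (1 : A)
  rw [map_one] at h2
  rw [h2, h]

variable (hA : ∀ a : A, ∃ c : ℂ, algebraMap ℂ A c = a)

include hA

theorem dd_zero (a : A) : (Om.dd a : Om ℂ A) = 0 := by
  obtain ⟨c, rfl⟩ := hA a
  exact H44.dd_const c

theorem nab_zero (b : DB ℂ A) (K : DGM A) (x : K.M.V) : nab b K.C x = 0 := by
  rw [nab_apply]
  exact Finset.sum_eq_zero fun i _ => by rw [dd_zero hA, zero_tmul]

/-- The map `x ↦ 1 ⊗ x`. -/
def insD (b : DB ℂ A) (K : DGM A) : GD.Hom K.M (DGM.DRg b K) where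
  f := oneT K
  comm x := by
    change oneT K (K.M.d x) = K.D b (oneT K x)
    rw [oneT_apply, oneT_apply, DGM.D_apply, dR_tmul, d_one, zero_tmul, map_one, one_smul,
      nab_zero hA, zero_add, zero_add, sgT_tmul, map_one, DGM.dA_apply]
  deg m x hx := K.tmul_mem (by rw [Nat.cast_zero, zero_add]) one_mem hx

theorem insD_f (b : DB ℂ A) (K : DGM A) (x : K.M.V) :
    (insD hA b K).f x = (1 : Om ℂ A) ⊗ₜ[A] x := rfl

/-- The action of the forms through their components of degree zero. -/
def actP (K : DGM A) : OAct A K.M where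
  L := (Algebra.lsmul ℂ ℂ K.M.V).comp
    ((ExteriorAlgebra.algebraMapInv (R := A) (M := Ω[A⁄ℂ])).restrictScalars ℂ)
  leib w x := by
    rw [om_d hA, om_sg hA, map_zero, LinearMap.zero_apply, zero_add]
    exact K.d_smul _ x
  deg p m w x hw hx := by
    by_cases hp : p = 0
    · subst hp
      rw [Nat.cast_zero, zero_add]
      exact K.gr_smul m _ x hx
    · rw [om_gr hA hp hw, map_zero, LinearMap.zero_apply]
      exact Submodule.zero_mem _

theorem actP_L (K : DGM A) (w : Om ℂ A) (x : K.M.V) :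
    (actP hA K).L w x = ExteriorAlgebra.algebraMapInv w • x := rfl

/-- The identity. -/
def evP (b : DB ℂ A) (K : DGM A) : OAct.Ev b K (actP hA K) where
  e := LinearMap.id
  lin c x := by
    have h : ExteriorAlgebra.algebraMapInv (algebraMap A (Om ℂ A) c) = c :=
      AlgHom.commutes _ c
    rw [actP_L, LinearMap.id_apply, LinearMap.id_apply, h]
  comm x := by
    rw [Finset.sum_eq_zero, add_zero]
    · rfl
    · intro i _
      rw [dd_zero hA, map_zero, LinearMap.zero_apply]
  deg m x hx := hx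

/-- The coefficient. -/
def coD (b : DB ℂ A) (K : DGM A) : GD.Hom (DGM.DRg b K) K.M := (evP hA b K).hom

theorem coD_tmul (b : DB ℂ A) (K : DGM A) (w : Om ℂ A) (x : K.M.V) :
    (coD hA b K).f (w ⊗ₜ[A] x) = ExteriorAlgebra.algebraMapInv w • x := rfl

theorem coD_insD (b : DB ℂ A) (K : DGM A) (x : K.M.V) :
    (coD hA b K).f ((insD hA b K).f x) = x := by
  rw [insD_f, coD_tmul, map_one, one_smul]

theorem insD_coD (b : DB ℂ A) (K : DGM A) (z : DR ℂ A K.M.V) :
    (insD hA b K).f ((coD hA b K).f z) = z := by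
  induction z using DR.induction with
  | zero => rw [map_zero, map_zero]
  | tmul w x =>
    rw [coD_tmul, insD_f]
    obtain ⟨c, rfl⟩ := om_const hA w
    rw [AlgHom.commutes]
    change (1 : Om ℂ A) ⊗ₜ[A] (algebraMap ℂ A c • x) = _
    rw [tmul_smul, smul_tmul', Algebra.smul_def, mul_one]
  | add a c ha hc => rw [map_add, map_add, ha, hc]

/-- **Over a point `x ↦ 1 ⊗ x` is a quasi-isomorphism to the de Rham complex.** -/
theorem qis_insD (b : DB ℂ A) (K : DGM A) : Qis (insD hA b K) :=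
  qis_of_inv _ (coD hA b K) (insD_coD hA b K) (coD_insD hA b K)

theorem qis_coD (b : DB ℂ A) (K : DGM A) : Qis (coD hA b K) :=
  qis_of_inv _ (insD hA b K) (coD_insD hA b K) (insD_coD hA b K)

end

end Vale.Agent.P286.H549
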