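import Vale.Agent.P286.H549.ExTot
import Vale.Agent.P286.H847.Ten

/-!
# Twisted tensor products

`W` is a graded differential space with a sign operator, with odd operators `c i` (left
multiplications by odd elements) and even operators `y i = d c i + c i d`; `N` is a graded
differential space with anticommuting operators `e i` which anticommute with `d`.
-/

namespace Vale.Agent.P286.H549

open TensorProduct H847 H847.GD H847.SGD

noncomputable section

/-- Odd operators `c i` and even operators `y i` on `W`. -/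
structure CY (W : SGD) {n : ℕ} (c y : Fin n → W.V →ₗ[ℂ] W.V) : Prop where
  sc : ∀ i w, W.sg (c i w) = - c i (W.sg w)
  sy : ∀ i w, W.sg (y i w) = y i (W.sg w)
  dc : ∀ i w, W.d (c i w) + c i (W.d w) = y i w
  cc : ∀ i j w, c i (c j w) = - c j (c i w)
  yc : ∀ i j w, y i (c j w) = c j (y i w)

/-- Even operators `y i` on `W` which commute with each other and with `d`. -/
structure YY (W : SGD) {n : ℕ} (y : Fin n → W.V →ₗ[ℂ] W.V) : Prop where
  sy : ∀ i w, W.sg (y i w) = y i (W.sg w)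
  dy : ∀ i w, W.d (y i w) = y i (W.d w)
  yy : ∀ i j w, y i (y j w) = y j (y i w)

/-- Anticommuting operators `e i` on `N` which anticommute with `d`. -/
structure EE (N : GD) {n : ℕ} (e : Fin n → N.V →ₗ[ℂ] N.V) : Prop where
  ee : ∀ i j x, e i (e j x) = - e j (e i x)
  de : ∀ i x, N.d (e i x) = - e i (N.d x)

theorem EE.e_e {N : GD} {n : ℕ} {e : Fin n → N.V →ₗ[ℂ] N.V} (h : EE N e) (i : Fin n) (x : N.V) :
    e i (e i x) = 0 := zero_of_eq_neg (h.ee i i x)

theorem CY.yy {W : SGD} {n : ℕ} {c y : Fin n → W.V →ₗ[ℂ] W.V} (h : CY W c y) : YY W y where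
  sy := h.sy
  dy i w := by
    rw [← h.dc, ← h.dc, map_add, W.dd, zero_add, W.dd, map_zero, add_zero]
  yy i j w := by
    have dy : ∀ w, W.d (y i w) = y i (W.d w) := fun w => by
      rw [← h.dc, ← h.dc, map_add, W.dd, zero_add, W.dd, map_zero, add_zero]
    rw [← h.dc j, ← h.dc j, map_add, h.yc, ← dy, h.yc, dy]

section mid

variable {n : ℕ}

/-- The operators `s ⊗ e i` on a tensor product. -/
def mE (F : SGD) {N : GD} (e : Fin n → N.V →ₗ[ℂ] N.V) (i : Fin n) :
    F.V ⊗[ℂ] N.V →ₗ[ℂ] F.V ⊗[ℂ] N.V := TensorProduct.map F.sg (e i)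

theorem mE_tmul (F : SGD) {N : GD} (e : Fin n → N.V →ₗ[ℂ] N.V) (i : Fin n) (a : F.V) (x : N.V) :
    mE F e i (a ⊗ₜ[ℂ] x) = F.sg a ⊗ₜ[ℂ] e i x := rfl

/-- The operators `s ⊗ e i` satisfy the same relations as the `e i`. -/
theorem EE.tens (F : SGD) {N : GD} {e : Fin n → N.V →ₗ[ℂ] N.V} (h : EE N e) :
    EE (tens F N) (mE F e) where
  ee i j z := by
    change F.V ⊗[ℂ] N.V at z
    change mE F e i (mE F e j z) = - mE F e j (mE F e i z)
    induction z using TensorProduct.induction_on with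
    | zero => simp
    | tmul a x =>
      rw [mE_tmul, mE_tmul, mE_tmul, mE_tmul, h.ee, tmul_neg]
    | add a b ha hb => simp only [map_add, ha, hb]; abel
  de i z := by
    change F.V ⊗[ℂ] N.V at z
    change td F N (mE F e i z) = - mE F e i (td F N z)
    induction z using TensorProduct.induction_on with
    | zero => simp
    | tmul a x =>
      rw [mE_tmul, td_tmul, td_tmul, map_add, mE_tmul, mE_tmul, h.de, F.sg_d, tmul_neg, neg_tmul]
      abel
    | add a b ha hb => simp only [map_add, ha, hb]; abel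

theorem mE_mem (F : SGD) {N : GD} {e : Fin n → N.V →ₗ[ℂ] N.V} {i : Fin n} {q : ℤ}
    (he : ∀ m, ∀ x ∈ N.gr m, e i x ∈ N.gr (m + q)) (m : ℤ) (z : F.V ⊗[ℂ] N.V)
    (hz : z ∈ tgr F.toGD N m) : mE F e i z ∈ tgr F.toGD N (m + q) :=
  map_tgr (T := mE F e i) (fun i' j' a x hij ha hx => by
    rw [mE_tmul]
    exact tmul_mem (by rw [← hij]; ring) (F.sg_mem ha) (he j' x hx)) hz

/-- The operators `c i ⊗ 1` and `y i ⊗ 1` on a tensor product. -/
theorem CY.tens {W : SGD} {c y : Fin n → W.V →ₗ[ℂ] W.V} (h : CY W c y) (F : SGD) :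
    CY (stens W F) (fun i => (c i).rTensor F.V) (fun i => (y i).rTensor F.V) where
  sc i z := by
    change W.V ⊗[ℂ] F.V at z
    change TensorProduct.map W.sg F.sg ((c i).rTensor F.V z) =
      - (c i).rTensor F.V (TensorProduct.map W.sg F.sg z)
    induction z using TensorProduct.induction_on with
    | zero => simp
    | tmul a x =>
      simp only [LinearMap.rTensor_tmul, map_tmul, h.sc, neg_tmul]
    | add a b ha hb => simp only [map_add, ha, hb]; abel
  sy i z := by
    change W.V ⊗[ℂ] F.V at z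
    change TensorProduct.map W.sg F.sg ((y i).rTensor F.V z) =
      (y i).rTensor F.V (TensorProduct.map W.sg F.sg z)
    induction z using TensorProduct.induction_on with
    | zero => simp
    | tmul a x =>
      simp only [LinearMap.rTensor_tmul, map_tmul, h.sy]
    | add a b ha hb => simp only [map_add, ha, hb]
  dc i z := by
    change W.V ⊗[ℂ] F.V at z
    change td W F.toGD ((c i).rTensor F.V z) + (c i).rTensor F.V (td W F.toGD z) =
      (y i).rTensor F.V z
    induction z using TensorProduct.induction_on with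
    | zero => simp
    | tmul a x =>
      simp only [LinearMap.rTensor_tmul, td_tmul, map_add, h.sc, neg_tmul]
      rw [← h.dc, add_tmul]
      abel
    | add a b ha hb =>
      simp only [map_add]
      rw [← ha, ← hb]
      abel
  cc i j z := by
    change W.V ⊗[ℂ] F.V at z
    change (c i).rTensor F.V ((c j).rTensor F.V z) = - (c j).rTensor F.V ((c i).rTensor F.V z)
    induction z using TensorProduct.induction_on with
    | zero => simp
    | tmul a x => simp only [LinearMap.rTensor_tmul]; rw [h.cc, neg_tmul]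
    | add a b ha hb => simp only [map_add, ha, hb]; abel
  yc i j z := by
    change W.V ⊗[ℂ] F.V at z
    change (y i).rTensor F.V ((c j).rTensor F.V z) = (c j).rTensor F.V ((y i).rTensor F.V z)
    induction z using TensorProduct.induction_on with
    | zero => simp
    | tmul a x => simp only [LinearMap.rTensor_tmul]; rw [h.yc]
    | add a b ha hb => simp only [map_add, ha, hb]

end mid

section tens

variable {n : ℕ} {W : SGD} {c y : Fin n → W.V →ₗ[ℂ] W.V} {N : GD} {e : Fin n → N.V →ₗ[ℂ] N.V}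

/-- The operator `c i s ⊗ e i`. -/
def tT (W : SGD) (c : Fin n → W.V →ₗ[ℂ] W.V) {N : GD} (e : Fin n → N.V →ₗ[ℂ] N.V) (i : Fin n) :
    W.V ⊗[ℂ] N.V →ₗ[ℂ] W.V ⊗[ℂ] N.V := TensorProduct.map (c i ∘ₗ W.sg) (e i)

theorem tT_tmul (i : Fin n) (w : W.V) (x : N.V) :
    tT W c e i (w ⊗ₜ[ℂ] x) = c i (W.sg w) ⊗ₜ[ℂ] e i x := rfl

/-- The relations of the operators on the tensor product. -/
theorem CY.xy (h : CY W c y) (hN : EE N e) : XY (td W N) (fun i => (c i).rTensor N.V)
    (fun i => mE W e i) (fun i => (y i).rTensor N.V) where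
  xx i j z := by
    induction z using TensorProduct.induction_on with
    | zero => simp
    | tmul a x => simp only [LinearMap.rTensor_tmul]; rw [h.cc, neg_tmul]
    | add a b ha hb => simp only [map_add, ha, hb]; abel
  EE i j z := (hN.tens W).ee i j z
  Ex i j z := by
    induction z using TensorProduct.induction_on with
    | zero => simp
    | tmul a x => simp only [LinearMap.rTensor_tmul, mE_tmul, h.sc, neg_tmul]
    | add a b ha hb => simp only [map_add, ha, hb]; abel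
  dE i z := (hN.tens W).de i z
  dx i z := by
    induction z using TensorProduct.induction_on with
    | zero => simp
    | tmul a x =>
      simp only [LinearMap.rTensor_tmul, td_tmul, map_add, h.sc, neg_tmul]
      rw [← h.dc, add_tmul]
      abel
    | add a b ha hb =>
      simp only [map_add]
      rw [← ha, ← hb]
      abel
  yx i j z := by
    induction z using TensorProduct.induction_on with
    | zero => simp
    | tmul a x => simp only [LinearMap.rTensor_tmul]; rw [h.yc]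
    | add a b ha hb => simp only [map_add, ha, hb]
  yE i j z := by
    induction z using TensorProduct.induction_on with
    | zero => simp
    | tmul a x => simp only [LinearMap.rTensor_tmul, mE_tmul, h.sy]
    | add a b ha hb => simp only [map_add, ha, hb]

theorem xe_rTensor (i : Fin n) (z : W.V ⊗[ℂ] N.V) :
    xe (fun i => (c i).rTensor N.V) (fun i => mE W e i) i z = tT W c e i z := by
  induction z using TensorProduct.induction_on with
  | zero => simp
  | tmul a x => rfl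
  | add a b ha hb => rw [map_add, map_add, ha, hb]

/-- The twist on the tensor product. -/
theorem CY.tw (h : CY W c y) (hN : EE N e) : TW (td W N) (tT W c e) (tT W y e) := by
  have h1 := (h.xy hN).tw
  rwa [show xe (fun i => (c i).rTensor N.V) (fun i => mE W e i) = tT W c e from
    funext fun i => LinearMap.ext fun z => xe_rTensor i z,
    show xe (fun i => (y i).rTensor N.V) (fun i => mE W e i) = tT W y e from
    funext fun i => LinearMap.ext fun z => xe_rTensor i z] at h1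

theorem tT_mem {q : ℤ} {p : ℤ} {i : Fin n}
    (hc : ∀ m, ∀ w ∈ W.gr m, c i w ∈ W.gr (m + p)) (he : ∀ m, ∀ x ∈ N.gr m, e i x ∈ N.gr (m + q))
    (m : ℤ) (z : W.V ⊗[ℂ] N.V) (hz : z ∈ tgr W.toGD N m) :
    tT W c e i z ∈ tgr W.toGD N (m + (p + q)) :=
  map_tgr (T := tT W c e i) (fun i' j' a x hij ha hx => by
    rw [tT_tmul]
    exact tmul_mem (by rw [← hij]; ring) (hc i' _ (W.sg_mem ha)) (he j' x hx)) hz

/-- The exponential on an element `w ⊗ x` with all `e i x = 0`. -/
theorem eT_tT_fix (w : W.V) (x : N.V) (hx : ∀ i, e i x = 0) :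
    eT (tT W c e) (w ⊗ₜ[ℂ] x) = w ⊗ₜ[ℂ] x :=
  eT_fix fun i => by rw [tT_tmul, hx, tmul_zero]

/-- Naturality of the exponential in `N`. -/
theorem eT_tT_map {N' : GD} {e' : Fin n → N'.V →ₗ[ℂ] N'.V} (u : N.V →ₗ[ℂ] N'.V)
    (hu : ∀ i x, u (e i x) = e' i (u x)) (z : W.V ⊗[ℂ] N.V) :
    u.lTensor W.V (eT (tT W c e) z) = eT (tT W c e') (u.lTensor W.V z) :=
  eT_map (u := u.lTensor W.V) (fun i z => by
    induction z using TensorProduct.induction_on with
    | zero => simp
    | tmul a x => simp only [tT_tmul, LinearMap.lTensor_tmul, hu]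
    | add a b ha hb => simp only [map_add, ha, hb]) z

/-- Naturality for maps of odd degree: `s ⊗ u` with `u e i = - e' i u`. -/
theorem eT_tT_map_odd (h : CY W c y) {N' : GD} {e' : Fin n → N'.V →ₗ[ℂ] N'.V} (u : N.V →ₗ[ℂ] N'.V)
    (hu : ∀ i x, u (e i x) = - e' i (u x)) (z : W.V ⊗[ℂ] N.V) :
    TensorProduct.map W.sg u (eT (tT W c e) z) = eT (tT W c e') (TensorProduct.map W.sg u z) :=
  eT_map (u := TensorProduct.map W.sg u) (fun i z => by
    induction z using TensorProduct.induction_on with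
    | zero => simp
    | tmul a x => simp only [tT_tmul, map_tmul, hu, h.sc, neg_tmul, tmul_neg, neg_neg]
    | add a b ha hb => simp only [map_add, ha, hb]) z

/-- Naturality of the exponential in `W`. -/
theorem eT_tT_mapW {W' : SGD} {c' : Fin n → W'.V →ₗ[ℂ] W'.V} (u : W.V →ₗ[ℂ] W'.V)
    (hs : ∀ w, u (W.sg w) = W'.sg (u w)) (hu : ∀ i w, u (c i w) = c' i (u w))
    (z : W.V ⊗[ℂ] N.V) :
    u.rTensor N.V (eT (tT W c e) z) = eT (tT W' c' e) (u.rTensor N.V z) :=
  eT_map (u := u.rTensor N.V) (fun i z => by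
    induction z using TensorProduct.induction_on with
    | zero => simp
    | tmul a x => simp only [tT_tmul, LinearMap.rTensor_tmul, hu, hs]
    | add a b ha hb => simp only [map_add, ha, hb]) z

end tens

/-! ### A middle factor -/

section assoc

variable {n : ℕ} (W F : SGD) (N : GD)

/-- The associator as a linear equivalence. -/
def asc : (W.V ⊗[ℂ] F.V) ⊗[ℂ] N.V ≃ₗ[ℂ] W.V ⊗[ℂ] (F.V ⊗[ℂ] N.V) :=
  TensorProduct.assoc ℂ W.V F.V N.V

@[simp] theorem asc_tmul (w : W.V) (a : F.V) (x : N.V) :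
    asc W F N ((w ⊗ₜ[ℂ] a) ⊗ₜ[ℂ] x) = w ⊗ₜ[ℂ] (a ⊗ₜ[ℂ] x) := rfl

@[simp] theorem asc_symm_tmul (w : W.V) (a : F.V) (x : N.V) :
    (asc W F N).symm (w ⊗ₜ[ℂ] (a ⊗ₜ[ℂ] x)) = (w ⊗ₜ[ℂ] a) ⊗ₜ[ℂ] x := rfl

theorem ind3 {P : (W.V ⊗[ℂ] F.V) ⊗[ℂ] N.V → Prop} (zero : P 0)
    (tmul : ∀ w a x, P ((w ⊗ₜ[ℂ] a) ⊗ₜ[ℂ] x)) (add : ∀ z z', P z → P z' → P (z + z'))
    (z : (W.V ⊗[ℂ] F.V) ⊗[ℂ] N.V) : P z := by
  induction z using TensorProduct.induction_on with
  | zero => exact zero
  | tmul b x =>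
    induction b using TensorProduct.induction_on with
    | zero => rw [zero_tmul]; exact zero
    | tmul w a => exact tmul w a x
    | add b b' hb hb' => rw [add_tmul]; exact add _ _ hb hb'
  | add z z' hz hz' => exact add z z' hz hz'

theorem ind3' {P : W.V ⊗[ℂ] (F.V ⊗[ℂ] N.V) → Prop} (zero : P 0)
    (tmul : ∀ w a x, P (w ⊗ₜ[ℂ] (a ⊗ₜ[ℂ] x))) (add : ∀ z z', P z → P z' → P (z + z'))
    (z : W.V ⊗[ℂ] (F.V ⊗[ℂ] N.V)) : P z := by
  induction z using TensorProduct.induction_on with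
  | zero => exact zero
  | tmul w b =>
    induction b using TensorProduct.induction_on with
    | zero => rw [tmul_zero]; exact zero
    | tmul a x => exact tmul w a x
    | add b b' hb hb' => rw [tmul_add]; exact add _ _ hb hb'
  | add z z' hz hz' => exact add z z' hz hz'

theorem asc_td (z : (W.V ⊗[ℂ] F.V) ⊗[ℂ] N.V) :
    asc W F N (td (stens W F) N z) = td W (tens F N) (asc W F N z) := by
  induction z using ind3 with
  | zero => simp
  | tmul w a x =>
    change asc W F N ((td W F.toGD (w ⊗ₜ[ℂ] a)) ⊗ₜ[ℂ] x +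
      (W.sg w ⊗ₜ[ℂ] F.sg a) ⊗ₜ[ℂ] N.d x) = W.d w ⊗ₜ[ℂ] (a ⊗ₜ[ℂ] x) +
      W.sg w ⊗ₜ[ℂ] (td F N (a ⊗ₜ[ℂ] x))
    rw [td_tmul, td_tmul, add_tmul, map_add, map_add, asc_tmul, asc_tmul, asc_tmul, tmul_add,
      add_assoc]
  | add z z' hz hz' => rw [map_add, map_add, hz, hz', map_add, map_add]

variable {W F N}

/-- The operators `C i s ⊗ e i` on `W ⊗ (F ⊗ N)`, where `C i` operates on `W ⊗ F`. -/
def t3 (C : Fin n → W.V ⊗[ℂ] F.V →ₗ[ℂ] W.V ⊗[ℂ] F.V) (e : Fin n → N.V →ₗ[ℂ] N.V) (i : Fin n) :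
    W.V ⊗[ℂ] (F.V ⊗[ℂ] N.V) →ₗ[ℂ] W.V ⊗[ℂ] (F.V ⊗[ℂ] N.V) :=
  (asc W F N).toLinearMap ∘ₗ tT (stens W F) C e i ∘ₗ (asc W F N).symm.toLinearMap

theorem t3_asc (C : Fin n → W.V ⊗[ℂ] F.V →ₗ[ℂ] W.V ⊗[ℂ] F.V) (e : Fin n → N.V →ₗ[ℂ] N.V)
    (i : Fin n) (z : (W.V ⊗[ℂ] F.V) ⊗[ℂ] N.V) :
    t3 C e i (asc W F N z) = asc W F N (tT (stens W F) C e i z) := by
  change asc W F N (tT (stens W F) C e i ((asc W F N).symm (asc W F N z))) = _
  rw [LinearEquiv.symm_apply_apply]

theorem t3_tmul (C : Fin n → W.V ⊗[ℂ] F.V →ₗ[ℂ] W.V ⊗[ℂ] F.V) (e : Fin n → N.V →ₗ[ℂ] N.V)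
    (i : Fin n) (w : W.V) (a : F.V) (x : N.V) : t3 C e i (w ⊗ₜ[ℂ] (a ⊗ₜ[ℂ] x)) =
    asc W F N (C i (W.sg w ⊗ₜ[ℂ] F.sg a) ⊗ₜ[ℂ] e i x) := rfl

/-- For operators `y i` on `W` alone: `y i s ⊗ (s ⊗ e i)`. -/
theorem t3_rTensor (y : Fin n → W.V →ₗ[ℂ] W.V) (e : Fin n → N.V →ₗ[ℂ] N.V) (i : Fin n) :
    t3 (fun i => (y i).rTensor F.V) e i = tT W y (N := tens F N) (mE F e) i := by
  apply LinearMap.ext
  intro z
  induction z using ind3' with
  | zero => simp
  | tmul w a x => rfl
  | add z z' hz hz' => rw [map_add, map_add, hz, hz']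

/-- The twist on a triple tensor product by odd elements of `W ⊗ F`. -/
theorem TW.t3 {C : Fin n → W.V ⊗[ℂ] F.V →ₗ[ℂ] W.V ⊗[ℂ] F.V} {y : Fin n → W.V →ₗ[ℂ] W.V}
    {e : Fin n → N.V →ₗ[ℂ] N.V} (hC : CY (stens W F) C (fun i => (y i).rTensor F.V))
    (hN : EE N e) : TW (td W (tens F N)) (t3 C e) (tT W y (N := tens F N) (mE F e)) := by
  have h := hC.tw hN
  have hs : ∀ z : W.V ⊗[ℂ] (F.V ⊗[ℂ] N.V), ∃ z', asc W F N z' = z := fun z =>
    ⟨(asc W F N).symm z, LinearEquiv.apply_symm_apply _ z⟩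
  rw [show tT W y (N := tens F N) (mE F e) = H549.t3 (fun i => (y i).rTensor F.V) e from
    funext fun i => (t3_rTensor y e i).symm]
  refine ⟨?_, ?_, ?_, ?_, ?_⟩
  · intro i j z
    obtain ⟨z, rfl⟩ := hs z
    rw [t3_asc, t3_asc, t3_asc, t3_asc, h.TT]
  · intro i z
    obtain ⟨z, rfl⟩ := hs z
    rw [t3_asc, t3_asc, h.T2, map_zero]
  · intro i z
    obtain ⟨z, rfl⟩ := hs z
    rw [t3_asc, t3_asc, ← asc_td, ← asc_td, t3_asc, h.dT, map_add]
  · intro i j z
    obtain ⟨z, rfl⟩ := hs z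
    rw [t3_asc, t3_asc, t3_asc, t3_asc, h.YT]
  · intro i z
    obtain ⟨z, rfl⟩ := hs z
    rw [t3_asc, t3_asc, h.Y2, map_zero]

end assoc

end

end Vale.Agent.P286.H549
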