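import Vale.Agent.P286.H549.XiW

/-!
# Maps to `XiTw`: quasi-isomorphisms and naturality
-/

namespace Vale.Agent.P286.H549

open CategoryTheory TensorProduct H847 H847.GD H847.SGD H64 H761 H761.CS H697 H867
  Vale.Agent.P286.Gen Vale.Agent.P286.H295 Vale.Agent.P286.St

noncomputable section

variable {n : ℕ} {N : ℕ} {Γ : Gps N} [hs : Algebra.Smooth ℂ (Of Γ)] {W : SGD}

namespace GY

variable {G : GauX Γ W n} {Y : LM.Yop n W} {c : Fin n → W.V →ₗ[ℂ] W.V} {o : W.V}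
  (H : GY G Y c o) {F F' D D' : OmF (BGT Γ)} (E : OEF F n) (E' : OEF F' n)

theorem ofNat_apply (u : GF.Nat' (G.wk D) (H.glm E).tw)
    (hu : ∀ X t (z : W.V ⊗[ℂ] (D.F X).M.V), (u.app X).f ((G.e t).rTensor (D.F X).M.V z) =
      (G.e t).rTensor (F.F X).M.V ((u.app X).f z)) (v : (G.Xi D).V) (k : ℕ) :
    ((H.ofNat E u hu).f v : ∀ k, W.V ⊗[ℂ] (F.F ((ptS Γ).P k)).M.V) k =
      (u.app ((ptS Γ).P k)).f (v k) :=
  Mor.tot_apply (u.cs (ptS Γ).co) v k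

/-- The value at the point. -/
theorem piTw_ofNat (u : GF.Nat' (G.wk D) (H.glm E).tw)
    (hu : ∀ X t (z : W.V ⊗[ℂ] (D.F X).M.V), (u.app X).f ((G.e t).rTensor (D.F X).M.V z) =
      (G.e t).rTensor (F.F X).M.V ((u.app X).f z))
    (q : GD.Hom (D.F (BPt Γ)).M (F.F (BPt Γ)).M)
    (hq : ∀ z : W.V ⊗[ℂ] (D.F (BPt Γ)).M.V, (G.ep (F.F (BPt Γ)).M).f ((u.app (BPt Γ)).f z) =
      q.f ((G.ep (D.F (BPt Γ)).M).f z)) (v : (G.Xi D).V) :
    (H.piTw E).f ((H.ofNat E u hu).f v) = q.f ((G.pi D).f v) := by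
  rw [piTw_apply, ofNat_apply, G.pi_apply]
  exact hq (v 0)

/-- **A map to `XiTw` is a quasi-isomorphism if it is one at the point.** -/
theorem qis_ofNat (u : GF.Nat' (G.wk D) (H.glm E).tw)
    (hu : ∀ X t (z : W.V ⊗[ℂ] (D.F X).M.V), (u.app X).f ((G.e t).rTensor (D.F X).M.V z) =
      (G.e t).rTensor (F.F X).M.V ((u.app X).f z))
    (q : GD.Hom (D.F (BPt Γ)).M (F.F (BPt Γ)).M) (hq' : Qis q)
    (hq : ∀ z : W.V ⊗[ℂ] (D.F (BPt Γ)).M.V, (G.ep (F.F (BPt Γ)).M).f ((u.app (BPt Γ)).f z) =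
      q.f ((G.ep (D.F (BPt Γ)).M).f z)) (hD : Qis (G.pi D)) (hF : Qis (G.pi F)) :
    Qis (H.ofNat E u hu).toHom := by
  refine Qis.of_comp_left (v := H.piTw E) (H.qis_piTw E hF) ?_
  have e : (H.piTw E).comp (H.ofNat E u hu).toHom = q.comp (G.pi D) :=
    homx (H.piTw_ofNat E u hu q hq)
  rw [e]
  exact Qis.comp hq' hD

/-- The same for the composition with the map induced by a cochain `b` of degree zero. -/
theorem qis_ofNat_xi (u : GF.Nat' (G.wk D) (H.glm E).tw)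
    (hu : ∀ X t (z : W.V ⊗[ℂ] (D.F X).M.V), (u.app X).f ((G.e t).rTensor (D.F X).M.V z) =
      (G.e t).rTensor (F.F X).M.V ((u.app X).f z))
    (q : GD.Hom (D.F (BPt Γ)).M (F.F (BPt Γ)).M)
    (hq : ∀ z : W.V ⊗[ℂ] (D.F (BPt Γ)).M.V, (G.ep (F.F (BPt Γ)).M).f ((u.app (BPt Γ)).f z) =
      q.f ((G.ep (D.F (BPt Γ)).M).f z)) (b : OmF.Coch D' D 0)
    (w : LM.Hom (G.Xi D') (G.Xi D)) (hw : ∀ v, w.f v = (G.xi b).f v)
    (b0 : GD.Hom (D'.F (BPt Γ)).M (D.F (BPt Γ)).M) (hb0 : ∀ x, b0.f x = b.f (BPt Γ) x)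
    (hq' : Qis (q.comp b0)) (hD : Qis (G.pi D')) (hF : Qis (G.pi F)) :
    Qis ((H.ofNat E u hu).comp w).toHom := by
  refine Qis.of_comp_left (v := H.piTw E) (H.qis_piTw E hF) ?_
  have e : (H.piTw E).comp ((H.ofNat E u hu).comp w).toHom = (q.comp b0).comp (G.pi D') :=
    homx fun v => by
      change (H.piTw E).f ((H.ofNat E u hu).f (w.f v)) = q.f (b0.f ((G.pi D').f v))
      rw [H.piTw_ofNat E u hu q hq, hw, hb0]
      exact congrArg q.f (G.pi_xi b v)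
  rw [e]
  exact Qis.comp hq' hD

/-- The maps to `XiTw` are natural. -/
theorem ofNat_map (u : GF.Nat' (G.wk D) (H.glm E).tw)
    (hu : ∀ X t (z : W.V ⊗[ℂ] (D.F X).M.V), (u.app X).f ((G.e t).rTensor (D.F X).M.V z) =
      (G.e t).rTensor (F.F X).M.V ((u.app X).f z))
    (u' : GF.Nat' (G.wk D') (H.glm E').tw)
    (hu' : ∀ X t (z : W.V ⊗[ℂ] (D'.F X).M.V), (u'.app X).f ((G.e t).rTensor (D'.F X).M.V z) =
      (G.e t).rTensor (F'.F X).M.V ((u'.app X).f z))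
    (a : EHom E E') (b : OmF.Coch D D' 0)
    (h : ∀ X (z : W.V ⊗[ℂ] (D.F X).M.V), (a.c.f X).lTensor W.V ((u.app X).f z) =
      (u'.app X).f ((b.f X).lTensor W.V z)) (v : (G.Xi D).V) :
    (H.map a).f ((H.ofNat E u hu).f v) = (H.ofNat E' u' hu').f ((G.xi b).f v) := by
  funext k
  rw [map_apply, ofNat_apply, ofNat_apply, G.xi_apply, sz_zero, one_pow, one_smul]
  refine (h _ (v k)).trans (congrArg _ ?_)
  exact (tco_zero W (F := (D.F ((ptS Γ).P k)).M) (G := (D'.F ((ptS Γ).P k)).M)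
    (b.f ((ptS Γ).P k)) (v k)).symm

end GY

end

end Vale.Agent.P286.H549
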